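import Claimed.Agent.R256.Nm.Geo.Est

/-!
# Row 256, unit NM, sub-block NM-GEO (Lemma names:refinement, 04-canonical-names.tex l.141-192), file 3: THE LEMMA      (helper51; prefix `nm_`)

EXITS (no boundedness hypothesis, no sign hypothesis on the parameters):
* `nm_refine_up`  : the finer name determines the coarser one up to a list of `nmK0` names.
* `nm_refine_dn`  : the coarser name determines the finer one up to `nmK0 * s^(-Cr (Δa + Δv))` names.
* `nm_refine_cmp` : names at arbitrary two parameters: mutual lists `nmK0 ^ 2 * s^(-Cr (|Δa| + |Δv|))` (through the common coarser pair).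
* on a documented configuration: `nm_nval_up`, `nm_nval_dn`, `nm_nval_cmp` (`FLaw.NVal`), `nm_ent_lip` (entropy), `nm_entC_lip_cond`.
PLAN: `nmVec` orders the entries `kb, t, k, R, X, B, L, Y, N, D`; for two raw data with the same fine (coarse) name and the same earlier coarse (fine) entries the known terms of `Geo/Est.lean` coincide, so `nm_step_up` (`nm_step_dn`) bounds the difference of the next entries; `nm_count` counts.
-/

set_option autoImplicit false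

namespace Claimed.Agent.R256

open Claimed.Agent.R255
open Classical

noncomputable section

/-- the entries in the order of the comparison -/
def nmVec (c : NmNm) : Fin 10 → ℤ := ![c.kb, c.t, c.k, c.R, c.X, c.B, c.L, c.Y, c.N, c.D]

theorem nm_vec_inj : Function.Injective nmVec := by
  intro c d h
  have e : ∀ i, nmVec c i = nmVec d i := fun i => congrFun h i
  have e0 : c.kb = d.kb := e 0
  have e1 : c.t = d.t := e 1
  have e2 : c.k = d.k := e 2
  have e3 : c.R = d.R := e 3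
  have e4 : c.X = d.X := e 4
  have e5 : c.B = d.B := e 5
  have e6 : c.L = d.L := e 6
  have e7 : c.Y = d.Y := e 7
  have e8 : c.N = d.N := e 8
  have e9 : c.D = d.D := e 9
  cases c
  cases d
  simp only at e0 e1 e2 e3 e4 e5 e6 e7 e8 e9
  subst e0 e1 e2 e3 e4 e5 e6 e7 e8 e9
  rfl

/-- the absolute constant of the lists -/
def nmK0 : ℝ := 10 ^ 15

/-- the differences of the entries, direction UP -/
def nmKup : Fin 10 → ℝ := ![0, 0, 3, 7, 3, 7, 43, 23, 31, 59]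

/-- the constants of the differences of the entries, direction DOWN -/
def nmKdn : Fin 10 → ℝ := ![0, 2, 2, 6, 2, 6, 42, 22, 30, 58]

/-- the exponents of the differences of the entries, direction DOWN -/
def NmG.ex (G : NmG) : Fin 10 → ℝ :=
  ![0, G.a' - G.a, G.q.ds.bs * (G.a' - G.a), G.q.ds.bs * (G.a' - G.a), G.v' - G.v, (G.a' - G.a) + (G.v' - G.v),
    G.q.l G.π G.a' G.v' - G.q.l G.π G.a G.v, (G.a' - G.a) + 2 * (G.v' - G.v),
    G.q.w G.π G.a' G.v' - G.q.w G.π G.a G.v, (G.a' - G.a) + (G.q.w G.π G.a' G.v' - G.q.w G.π G.a G.v)]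

/-! ### the known terms read only earlier entries -/

theorem nm_ge_tau (G : NmG) {c d c' d' : NmNm} (ht : c.t = d.t) (ht' : c'.t = d'.t) : G.tau c c' = G.tau d d' := by
  unfold NmG.tau NmNm.tv
  rw [ht, ht']

theorem nm_ge_dk (G : NmG) {c d c' d' : NmNm} (hk : c.k = d.k) (hk' : c'.k = d'.k) : G.dk c c' = G.dk d d' := by
  unfold NmG.dk NmNm.kv
  rw [hk, hk']

theorem nm_ge_dR (G : NmG) {c d c' d' : NmNm} (ht : c.t = d.t) (ht' : c'.t = d'.t) (hk : c.k = d.k) (hR : c.R = d.R) (hR' : c'.R = d'.R) :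
    G.dR c c' = G.dR d d' := by
  unfold NmG.dR NmNm.Rv NmNm.kv
  rw [nm_ge_tau G ht ht', hk, hR, hR']

theorem nm_ge_dL (G : NmG) {c d c' d' : NmNm} (hL : c.L = d.L) (hL' : c'.L = d'.L) : G.dL c c' = G.dL d d' := by
  unfold NmG.dL NmNm.Lv
  rw [hL, hL']

theorem nm_ge_knR (G : NmG) {c d c' d' : NmNm} (ht : c.t = d.t) (ht' : c'.t = d'.t) (hk : c.k = d.k) : G.knR c c' = G.knR d d' := by
  unfold NmG.knR NmNm.kv
  rw [nm_ge_tau G ht ht', hk]

theorem nm_ge_knB (G : NmG) {c d c' d' : NmNm} (ht : c.t = d.t) (ht' : c'.t = d'.t) (hX : c.X = d.X) : G.knB c c' = G.knB d d' := by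
  unfold NmG.knB NmNm.Xv
  rw [nm_ge_tau G ht ht', hX]

theorem nm_ge_knL (G : NmG) {c d c' d' : NmNm} (ht : c.t = d.t) (ht' : c'.t = d'.t) (hk : c.k = d.k) (hk' : c'.k = d'.k) (hR : c.R = d.R)
    (hR' : c'.R = d'.R) (hX : c.X = d.X) (hB' : c'.B = d'.B) : G.knL c c' = G.knL d d' := by
  unfold NmG.knL NmNm.Xv NmNm.Bv
  rw [nm_ge_dR G ht ht' hk hR hR', nm_ge_dk G hk hk', hX, hB']

theorem nm_ge_knY (G : NmG) {c d c' d' : NmNm} (ht : c.t = d.t) (ht' : c'.t = d'.t) (hX : c.X = d.X) (hX' : c'.X = d'.X)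
    (hB' : c'.B = d'.B) : G.knY c c' = G.knY d d' := by
  unfold NmG.knY NmNm.Xv NmNm.Bv
  rw [nm_ge_tau G ht ht', hX, hX', hB']

theorem nm_ge_knN (G : NmG) {c d c' d' : NmNm} (ht : c.t = d.t) (ht' : c'.t = d'.t) (hk : c.k = d.k) (hk' : c'.k = d'.k) (hR : c.R = d.R)
    (hR' : c'.R = d'.R) (hX' : c'.X = d'.X) (hL : c.L = d.L) (hL' : c'.L = d'.L) (hY' : c'.Y = d'.Y) : G.knN c c' = G.knN d d' := by
  unfold NmG.knN NmNm.Xv NmNm.Yv
  rw [nm_ge_dR G ht ht' hk hR hR', nm_ge_dk G hk hk', nm_ge_dL G hL hL', hX', hY']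

theorem nm_ge_knD (G : NmG) {c d c' d' : NmNm} (ht : c.t = d.t) (ht' : c'.t = d'.t) (hk : c.k = d.k) (hk' : c'.k = d'.k) (hR : c.R = d.R)
    (hR' : c'.R = d'.R) (hX' : c'.X = d'.X) (hB' : c'.B = d'.B) (hL : c.L = d.L) (hL' : c'.L = d'.L) (hY' : c'.Y = d'.Y) (hN : c.N = d.N) :
    G.knD c c' = G.knD d d' := by
  unfold NmG.knD NmNm.Xv NmNm.Yv NmNm.Bv NmNm.Nv
  rw [nm_ge_tau G ht ht', nm_ge_dR G ht ht' hk hR hR', nm_ge_dk G hk hk', nm_ge_dL G hL hL', hX', hY', hB', hN]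

theorem nm_ge_zero (r : ℝ) (S : ℝ) : |r - r - 0| ≤ 0 * S := by simp

theorem nm_ge_kraw (x : NmRaw) (q : NmQ) (h : q.ds.cut ≠ NmCut.slope) : x.kraw q = 0 := by
  unfold NmRaw.kraw
  cases hc : q.ds.cut with
  | slope => exact absurd hc h
  | const => rfl
  | none => rfl

/-- **two raw data, direction UP** -/
theorem nm_two_up {G : NmG} (hG : G.Ok) (x y : NmRaw) (hf : G.hi x = G.hi y) (i : Fin 10)
    (hp : ∀ j < i, nmVec (G.lo x) j = nmVec (G.lo y) j) :
    |((nmVec (G.lo x) i - nmVec (G.lo y) i : ℤ) : ℝ)| ≤ nmKup i := by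
  have h0 := hG.s0
  have h1 := hG.s1
  have ft : (G.hi x).t = (G.hi y).t := congrArg NmNm.t hf
  have fk : (G.hi x).k = (G.hi y).k := congrArg NmNm.k hf
  have fR : (G.hi x).R = (G.hi y).R := congrArg NmNm.R hf
  have fX : (G.hi x).X = (G.hi y).X := congrArg NmNm.X hf
  have fB : (G.hi x).B = (G.hi y).B := congrArg NmNm.B hf
  have fL : (G.hi x).L = (G.hi y).L := congrArg NmNm.L hf
  have fY : (G.hi x).Y = (G.hi y).Y := congrArg NmNm.Y hf
  have fN : (G.hi x).N = (G.hi y).N := congrArg NmNm.N hf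
  have fD : (G.hi x).D = (G.hi y).D := congrArg NmNm.D hf
  fin_cases i
  · show |(((G.lo x).kb - (G.lo y).kb : ℤ) : ℝ)| ≤ 0
    have e' : (G.hi x).kb = (G.hi y).kb := congrArg NmNm.kb hf
    have e : (G.lo x).kb = (G.lo y).kb := e'
    rw [e]
    simp
  · show |(((G.lo x).t - (G.lo y).t : ℤ) : ℝ)| ≤ 0
    have e : (G.lo x).t = (G.lo y).t := nm_cell_nest h0 h1 hG.a ft
    rw [e]
    simp
  · show |(((G.lo x).k - (G.lo y).k : ℤ) : ℝ)| ≤ 3
    by_cases hc : G.q.ds.cut = NmCut.slope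
    · have hb : G.q.ds.b G.a - G.a ≤ G.q.ds.b G.a' - G.a' := by
        unfold NmDs.b
        nlinarith [hG.q.bs1 hc, hG.a]
      exact (nm_step_up h0 h1 hb (nm_ge_zero (x.kraw G.q) _) (nm_ge_zero (y.kraw G.q) _) fk).trans (by norm_num)
    · have e : (G.lo x).k = (G.lo y).k := by
        show nmCell G.s (G.q.ds.b G.a - G.a) (x.kraw G.q) = nmCell G.s (G.q.ds.b G.a - G.a) (y.kraw G.q)
        rw [nm_ge_kraw x G.q hc, nm_ge_kraw y G.q hc]
      rw [e]
      simp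
  · show |(((G.lo x).R - (G.lo y).R : ℤ) : ℝ)| ≤ 7
    have pt : (G.lo x).t = (G.lo y).t := hp 1 (by decide)
    have pk : (G.lo x).k = (G.lo y).k := hp 2 (by decide)
    have hy := nm_est_R hG y
    rw [← nm_ge_knR G pt ft pk] at hy
    exact (nm_step_up h0 h1 (nm_b_mono hG) (nm_est_R hG x) hy fR).trans (by norm_num)
  · show |(((G.lo x).X - (G.lo y).X : ℤ) : ℝ)| ≤ 3
    exact (nm_step_up h0 h1 hG.v (nm_ge_zero x.z.X _) (nm_ge_zero y.z.X _) fX).trans (by norm_num)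
  · show |(((G.lo x).B - (G.lo y).B : ℤ) : ℝ)| ≤ 7
    have pt : (G.lo x).t = (G.lo y).t := hp 1 (by decide)
    have pX : (G.lo x).X = (G.lo y).X := hp 4 (by decide)
    have hy := nm_est_B hG y
    rw [← nm_ge_knB G pt ft pX] at hy
    exact (nm_step_up h0 h1 (add_le_add hG.a hG.v) (nm_est_B hG x) hy fB).trans (by norm_num)
  · show |(((G.lo x).L - (G.lo y).L : ℤ) : ℝ)| ≤ 43
    have pt : (G.lo x).t = (G.lo y).t := hp 1 (by decide)
    have pk : (G.lo x).k = (G.lo y).k := hp 2 (by decide)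
    have pR : (G.lo x).R = (G.lo y).R := hp 3 (by decide)
    have pX : (G.lo x).X = (G.lo y).X := hp 4 (by decide)
    have hy := nm_est_L hG y
    rw [← nm_ge_knL G pt ft pk fk pR fR pX fB] at hy
    exact (nm_step_up h0 h1 (nm_l_mono hG) (nm_est_L hG x) hy fL).trans (by norm_num)
  · show |(((G.lo x).Y - (G.lo y).Y : ℤ) : ℝ)| ≤ 23
    have pt : (G.lo x).t = (G.lo y).t := hp 1 (by decide)
    have pX : (G.lo x).X = (G.lo y).X := hp 4 (by decide)
    have hy := nm_est_Y hG y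
    rw [← nm_ge_knY G pt ft pX fX fB] at hy
    exact (nm_step_up h0 h1 (by linarith [hG.a, hG.v]) (nm_est_Y hG x) hy fY).trans (by norm_num)
  · show |(((G.lo x).N - (G.lo y).N : ℤ) : ℝ)| ≤ 31
    have pt : (G.lo x).t = (G.lo y).t := hp 1 (by decide)
    have pk : (G.lo x).k = (G.lo y).k := hp 2 (by decide)
    have pR : (G.lo x).R = (G.lo y).R := hp 3 (by decide)
    have pL : (G.lo x).L = (G.lo y).L := hp 6 (by decide)
    have hy := nm_est_N hG y
    rw [← nm_ge_knN G pt ft pk fk pR fR fX pL fL fY] at hy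
    exact (nm_step_up h0 h1 (by linarith [nm_w_mono hG]) (nm_est_N hG x) hy fN).trans (by norm_num)
  · show |(((G.lo x).D - (G.lo y).D : ℤ) : ℝ)| ≤ 59
    have pt : (G.lo x).t = (G.lo y).t := hp 1 (by decide)
    have pk : (G.lo x).k = (G.lo y).k := hp 2 (by decide)
    have pR : (G.lo x).R = (G.lo y).R := hp 3 (by decide)
    have pL : (G.lo x).L = (G.lo y).L := hp 6 (by decide)
    have pN : (G.lo x).N = (G.lo y).N := hp 8 (by decide)
    have hy := nm_est_D hG y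
    rw [← nm_ge_knD G pt ft pk fk pR fR fX fB pL fL fY pN] at hy
    exact (nm_step_up h0 h1 (by linarith [nm_w_mono hG, hG.a]) (nm_est_D hG x) hy fD).trans (by norm_num)

/-- **two raw data, direction DOWN** -/
theorem nm_two_dn {G : NmG} (hG : G.Ok) (x y : NmRaw) (hf : G.lo x = G.lo y) (i : Fin 10)
    (hp : ∀ j < i, nmVec (G.hi x) j = nmVec (G.hi y) j) :
    |((nmVec (G.hi x) i - nmVec (G.hi y) i : ℤ) : ℝ)| ≤ nmKdn i * G.s ^ (-(G.ex i)) + 1 := by
  have h0 := hG.s0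
  have h1 := hG.s1
  have ft : (G.lo x).t = (G.lo y).t := congrArg NmNm.t hf
  have fk : (G.lo x).k = (G.lo y).k := congrArg NmNm.k hf
  have fR : (G.lo x).R = (G.lo y).R := congrArg NmNm.R hf
  have fX : (G.lo x).X = (G.lo y).X := congrArg NmNm.X hf
  have fB : (G.lo x).B = (G.lo y).B := congrArg NmNm.B hf
  have fL : (G.lo x).L = (G.lo y).L := congrArg NmNm.L hf
  have fY : (G.lo x).Y = (G.lo y).Y := congrArg NmNm.Y hf
  have fN : (G.lo x).N = (G.lo y).N := congrArg NmNm.N hf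
  have fD : (G.lo x).D = (G.lo y).D := congrArg NmNm.D hf
  have fin : ∀ {n : ℤ} {K K' e e' : ℝ}, |(n : ℝ)| ≤ K * G.s ^ (-e) + 1 → K = K' → e = e' → |(n : ℝ)| ≤ K' * G.s ^ (-e') + 1 := by
    intro n K K' e e' h hK he
    rw [← hK, ← he]
    exact h
  fin_cases i
  · show |(((G.hi x).kb - (G.hi y).kb : ℤ) : ℝ)| ≤ 0 * G.s ^ (-(0 : ℝ)) + 1
    have e' : (G.lo x).kb = (G.lo y).kb := congrArg NmNm.kb hf
    have e : (G.hi x).kb = (G.hi y).kb := e'
    rw [e]
    simp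
  · show |(((G.hi x).t - (G.hi y).t : ℤ) : ℝ)| ≤ 2 * G.s ^ (-(G.a' - G.a)) + 1
    exact fin (nm_step_dn h0 h1 (nm_ge_zero x.T _) (nm_ge_zero y.T _) ft) (by norm_num) rfl
  · show |(((G.hi x).k - (G.hi y).k : ℤ) : ℝ)| ≤ 2 * G.s ^ (-(G.q.ds.bs * (G.a' - G.a))) + 1
    have h2 := fin (nm_step_dn (b' := G.q.ds.b G.a' - G.a') h0 h1 (nm_ge_zero (x.kraw G.q) _) (nm_ge_zero (y.kraw G.q) _) fk)
      (K' := 2) (by norm_num) rfl
    refine h2.trans ?_
    have h3 : G.s ^ (-(G.q.ds.b G.a' - G.a' - (G.q.ds.b G.a - G.a))) ≤ G.s ^ (-(G.q.ds.bs * (G.a' - G.a))) := by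
      refine nm_pow_anti h0 h1 ?_
      unfold NmDs.b
      linarith [hG.a]
    linarith
  · show |(((G.hi x).R - (G.hi y).R : ℤ) : ℝ)| ≤ 6 * G.s ^ (-(G.q.ds.bs * (G.a' - G.a))) + 1
    have pt : (G.hi x).t = (G.hi y).t := hp 1 (by decide)
    have hy := nm_est_R hG y
    rw [← nm_ge_knR G ft pt fk] at hy
    exact fin (nm_step_dn h0 h1 (nm_est_R hG x) hy fR) (by norm_num) (by unfold NmDs.b; ring)
  · show |(((G.hi x).X - (G.hi y).X : ℤ) : ℝ)| ≤ 2 * G.s ^ (-(G.v' - G.v)) + 1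
    exact fin (nm_step_dn h0 h1 (nm_ge_zero x.z.X _) (nm_ge_zero y.z.X _) fX) (by norm_num) rfl
  · show |(((G.hi x).B - (G.hi y).B : ℤ) : ℝ)| ≤ 6 * G.s ^ (-((G.a' - G.a) + (G.v' - G.v))) + 1
    have pt : (G.hi x).t = (G.hi y).t := hp 1 (by decide)
    have hy := nm_est_B hG y
    rw [← nm_ge_knB G ft pt fX] at hy
    exact fin (nm_step_dn h0 h1 (nm_est_B hG x) hy fB) (by norm_num) (by ring)
  · show |(((G.hi x).L - (G.hi y).L : ℤ) : ℝ)| ≤ 42 * G.s ^ (-(G.q.l G.π G.a' G.v' - G.q.l G.π G.a G.v)) + 1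
    have pt : (G.hi x).t = (G.hi y).t := hp 1 (by decide)
    have pk : (G.hi x).k = (G.hi y).k := hp 2 (by decide)
    have pR : (G.hi x).R = (G.hi y).R := hp 3 (by decide)
    have pB : (G.hi x).B = (G.hi y).B := hp 5 (by decide)
    have hy := nm_est_L hG y
    rw [← nm_ge_knL G ft pt fk pk fR pR fX pB] at hy
    exact fin (nm_step_dn h0 h1 (nm_est_L hG x) hy fL) (by norm_num) rfl
  · show |(((G.hi x).Y - (G.hi y).Y : ℤ) : ℝ)| ≤ 22 * G.s ^ (-((G.a' - G.a) + 2 * (G.v' - G.v))) + 1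
    have pt : (G.hi x).t = (G.hi y).t := hp 1 (by decide)
    have pX : (G.hi x).X = (G.hi y).X := hp 4 (by decide)
    have pB : (G.hi x).B = (G.hi y).B := hp 5 (by decide)
    have hy := nm_est_Y hG y
    rw [← nm_ge_knY G ft pt fX pX pB] at hy
    exact fin (nm_step_dn h0 h1 (nm_est_Y hG x) hy fY) (by norm_num) (by ring)
  · show |(((G.hi x).N - (G.hi y).N : ℤ) : ℝ)| ≤ 30 * G.s ^ (-(G.q.w G.π G.a' G.v' - G.q.w G.π G.a G.v)) + 1
    have pt : (G.hi x).t = (G.hi y).t := hp 1 (by decide)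
    have pk : (G.hi x).k = (G.hi y).k := hp 2 (by decide)
    have pR : (G.hi x).R = (G.hi y).R := hp 3 (by decide)
    have pX : (G.hi x).X = (G.hi y).X := hp 4 (by decide)
    have pL : (G.hi x).L = (G.hi y).L := hp 6 (by decide)
    have pY : (G.hi x).Y = (G.hi y).Y := hp 7 (by decide)
    have hy := nm_est_N hG y
    rw [← nm_ge_knN G ft pt fk pk fR pR pX fL pL pY] at hy
    exact fin (nm_step_dn h0 h1 (nm_est_N hG x) hy fN) (by norm_num) (by ring)
  · show |(((G.hi x).D - (G.hi y).D : ℤ) : ℝ)| ≤ 58 * G.s ^ (-((G.a' - G.a) + (G.q.w G.π G.a' G.v' - G.q.w G.π G.a G.v))) + 1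
    have pt : (G.hi x).t = (G.hi y).t := hp 1 (by decide)
    have pk : (G.hi x).k = (G.hi y).k := hp 2 (by decide)
    have pR : (G.hi x).R = (G.hi y).R := hp 3 (by decide)
    have pX : (G.hi x).X = (G.hi y).X := hp 4 (by decide)
    have pB : (G.hi x).B = (G.hi y).B := hp 5 (by decide)
    have pL : (G.hi x).L = (G.hi y).L := hp 6 (by decide)
    have pY : (G.hi x).Y = (G.hi y).Y := hp 7 (by decide)
    have hy := nm_est_D hG y
    rw [← nm_ge_knD G ft pt fk pk fR pR pX pB fL pL pY fN] at hy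
    exact fin (nm_step_dn h0 h1 (nm_est_D hG x) hy fD) (by norm_num) (by ring)

/-- the sum of the exponents -/
theorem nm_ex_sum {G : NmG} (hG : G.Ok) : (∀ i, 0 ≤ G.ex i) ∧ ∑ i, G.ex i ≤ G.q.Cr G.π * ((G.a' - G.a) + (G.v' - G.v)) := by
  have ha : 0 ≤ G.a' - G.a := sub_nonneg.2 hG.a
  have hv : 0 ≤ G.v' - G.v := sub_nonneg.2 hG.v
  have hl : 0 ≤ G.q.l G.π G.a' G.v' - G.q.l G.π G.a G.v := sub_nonneg.2 (nm_l_mono hG)
  have hw : 0 ≤ G.q.w G.π G.a' G.v' - G.q.w G.π G.a G.v := sub_nonneg.2 (nm_w_mono hG)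
  have hbs := hG.q.bs0
  have hba : 0 ≤ G.q.ds.bs * (G.a' - G.a) := mul_nonneg hbs ha
  constructor
  · intro i
    fin_cases i
    · exact le_rfl
    · exact ha
    · exact hba
    · exact hba
    · exact hv
    · exact add_nonneg ha hv
    · exact hl
    · show 0 ≤ (G.a' - G.a) + 2 * (G.v' - G.v)
      linarith
    · exact hw
    · exact add_nonneg ha hw
  · have e : ∑ i, G.ex i = 0 + (G.a' - G.a) + G.q.ds.bs * (G.a' - G.a) + G.q.ds.bs * (G.a' - G.a) + (G.v' - G.v)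
        + ((G.a' - G.a) + (G.v' - G.v)) + (G.q.l G.π G.a' G.v' - G.q.l G.π G.a G.v) + ((G.a' - G.a) + 2 * (G.v' - G.v))
        + (G.q.w G.π G.a' G.v' - G.q.w G.π G.a G.v) + ((G.a' - G.a) + (G.q.w G.π G.a' G.v' - G.q.w G.π G.a G.v)) := by
      simp only [Fin.sum_univ_succ, Fin.sum_univ_zero]
      simp [NmG.ex]
      ring
    rw [e, nm_w_eq, nm_w_eq]
    have hlip := nm_l_lip hG
    have habs : 0 ≤ |G.π.q - G.π.J| := abs_nonneg _
    unfold NmQ.Cr
    obtain ⟨M, hM⟩ : ∃ M : ℝ, M = 1 + G.q.ds.bs + |G.π.q - G.π.J| := ⟨_, rfl⟩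
    rw [← hM] at hlip ⊢
    have hM1 : 1 ≤ M := by rw [hM]; linarith
    have hMb : G.q.ds.bs ≤ M := by rw [hM]; linarith
    have h1 : G.q.ds.bs * (G.a' - G.a) ≤ M * (G.a' - G.a) := mul_le_mul_of_nonneg_right hMb ha
    have h2 : (G.a' - G.a) ≤ M * (G.a' - G.a) := le_mul_of_one_le_left ha hM1
    have h3 : (G.v' - G.v) ≤ M * (G.v' - G.v) := le_mul_of_one_le_left hv hM1
    nlinarith

/-- helper: `nm_count` for a set of names -/
theorem nm_aux_list (K : Fin 10 → ℝ) (hK : ∀ i, 0 ≤ K i) (T : Set NmNm)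
    (h : ∀ c ∈ T, ∀ d ∈ T, ∀ i, (∀ j < i, nmVec c j = nmVec d j) → |((nmVec c i - nmVec d i : ℤ) : ℝ)| ≤ K i) :
    ∃ S : Finset NmNm, (S.card : ℝ) ≤ ∏ i, (K i + 1) ∧ ∀ c ∈ T, c ∈ S := by
  have hcount := nm_count 10 K hK (nmVec '' T) (by
    rintro _ ⟨c, hc, rfl⟩ _ ⟨d, hd, rfl⟩ i hp
    exact h c hc d hd i hp)
  have hfin : T.Finite := hcount.1.of_finite_image nm_vec_inj.injOn
  refine ⟨hfin.toFinset, ?_, fun c hc => hfin.mem_toFinset.2 hc⟩
  have e : (hfin.toFinset.card : ℝ) = ((nmVec '' T).ncard : ℝ) := by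
    rw [Set.ncard_image_of_injective _ nm_vec_inj, Set.ncard_eq_toFinset_card T hfin]
  rw [e]
  exact hcount.2

theorem nm_aux_Kup : (∀ i, 0 ≤ nmKup i) ∧ ∏ i, (nmKup i + 1) ≤ nmK0 := by
  constructor
  · intro i
    fin_cases i <;> simp [nmKup]
  · simp only [Fin.prod_univ_succ, nmKup, nmK0]
    simp
    norm_num

theorem nm_aux_Kdn : (∀ i, 0 ≤ nmKdn i) ∧ ∏ i, (nmKdn i + 2) ≤ nmK0 := by
  constructor
  · intro i
    fin_cases i <;> simp [nmKdn]
  · simp only [Fin.prod_univ_succ, nmKdn, nmK0]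
    simp
    norm_num

/-- helper: `H(X | B) ≤ H(X | A) + H(A | B)` -/
theorem nm_aux_entC_tri {Ω : Type} [Fintype Ω] (P : FLaw Ω) {α β γ : Type} (X : Ω → α) (A : Ω → β) (B : Ω → γ) :
    P.entC X B ≤ P.entC X A + P.entC A B := by
  unfold FLaw.entC
  have s1 := ent_submod P X B A
  have s2 := ent_le_pair_left P (FLaw.pair X B) A
  have s3 := ent_pair_comm P B A
  linarith

/-- **Lemma names:refinement, the finer name determines the coarser one** -/
theorem nm_refine_up {G : NmG} (hG : G.Ok) (c' : NmNm) :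
    ∃ S : Finset NmNm, (S.card : ℝ) ≤ nmK0 ∧ ∀ x : NmRaw, G.hi x = c' → G.lo x ∈ S := by
  obtain ⟨S, hS, hmem⟩ := nm_aux_list nmKup nm_aux_Kup.1 {c | ∃ x : NmRaw, G.hi x = c' ∧ G.lo x = c} (by
    rintro _ ⟨x, hx, rfl⟩ _ ⟨y, hy, rfl⟩ i hp
    exact nm_two_up hG x y (hx.trans hy.symm) i hp)
  exact ⟨S, hS.trans nm_aux_Kup.2, fun x hx => hmem _ ⟨x, hx, rfl⟩⟩

/-- **Lemma names:refinement, relative branching** -/
theorem nm_refine_dn {G : NmG} (hG : G.Ok) (c : NmNm) :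
    ∃ S : Finset NmNm, (S.card : ℝ) ≤ nmK0 * G.s ^ (-(G.q.Cr G.π * ((G.a' - G.a) + (G.v' - G.v)))) ∧
      ∀ x : NmRaw, G.lo x = c → G.hi x ∈ S := by
  obtain ⟨hex0, hexs⟩ := nm_ex_sum hG
  have hpw : ∀ i, 1 ≤ G.s ^ (-(G.ex i)) := fun i =>
    Real.one_le_rpow_of_pos_of_le_one_of_nonpos hG.s0 hG.s1.le (by linarith [hex0 i])
  obtain ⟨S, hS, hmem⟩ := nm_aux_list (fun i => nmKdn i * G.s ^ (-(G.ex i)) + 1)
    (fun i => by
      have := mul_nonneg (nm_aux_Kdn.1 i) (zero_le_one.trans (hpw i))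
      linarith)
    {c' | ∃ x : NmRaw, G.lo x = c ∧ G.hi x = c'} (by
    rintro _ ⟨x, hx, rfl⟩ _ ⟨y, hy, rfl⟩ i hp
    exact nm_two_dn hG x y (hx.trans hy.symm) i hp)
  refine ⟨S, hS.trans ?_, fun x hx => hmem _ ⟨x, hx, rfl⟩⟩
  calc ∏ i, (nmKdn i * G.s ^ (-(G.ex i)) + 1 + 1) ≤ ∏ i, ((nmKdn i + 2) * G.s ^ (-(G.ex i))) := by
        refine Finset.prod_le_prod (fun i _ => ?_) (fun i _ => ?_)
        · have := mul_nonneg (nm_aux_Kdn.1 i) (zero_le_one.trans (hpw i))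
          linarith
        · have := hpw i
          nlinarith
    _ = (∏ i, (nmKdn i + 2)) * G.s ^ (-(∑ i, G.ex i)) := by
        rw [Finset.prod_mul_distrib, ← Finset.sum_neg_distrib, Real.rpow_sum_of_pos hG.s0]
    _ ≤ nmK0 * G.s ^ (-(G.q.Cr G.π * ((G.a' - G.a) + (G.v' - G.v)))) := by
        refine mul_le_mul nm_aux_Kdn.2 ?_ (Real.rpow_nonneg hG.s0.le _) (by unfold nmK0; positivity)
        exact Real.rpow_le_rpow_of_exponent_ge hG.s0 hG.s1.le (by linarith)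

/-- **Lemma names:refinement, mutual comparison** at two arbitrary parameters -/
theorem nm_refine_cmp {s : ℝ} (h0 : 0 < s) (h1 : s < 1) {π : SfPar} {q : NmQ} (hq : q.Ok π) (a v a' v' : ℝ) (c : NmNm) :
    ∃ S : Finset NmNm, (S.card : ℝ) ≤ nmK0 ^ 2 * s ^ (-(q.Cr π * (|a' - a| + |v' - v|))) ∧
      ∀ x : NmRaw, x.name s π q a v = c → x.name s π q a' v' ∈ S := by
  have hG1 : (⟨s, π, q, min a a', min v v', a, v⟩ : NmG).Ok := ⟨h0, h1, hq, min_le_left _ _, min_le_left _ _⟩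
  have hG2 : (⟨s, π, q, min a a', min v v', a', v'⟩ : NmG).Ok := ⟨h0, h1, hq, min_le_right _ _, min_le_right _ _⟩
  obtain ⟨S1, hS1, hm1⟩ := nm_refine_up hG1 c
  choose S2 hS2 hm2 using nm_refine_dn hG2
  have hK0 : 0 ≤ nmK0 := by unfold nmK0; positivity
  have hCr : 0 ≤ q.Cr π := by
    unfold NmQ.Cr
    have := hq.bs0
    positivity
  refine ⟨S1.biUnion S2, ?_, fun x hx => ?_⟩
  · have hb : ∀ c₀ ∈ S1, (S2 c₀).card ≤ ⌊nmK0 * s ^ (-(q.Cr π * (|a' - a| + |v' - v|)))⌋₊ := by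
      intro c₀ _
      refine Nat.le_floor ((hS2 c₀).trans ?_)
      refine mul_le_mul_of_nonneg_left ?_ hK0
      refine Real.rpow_le_rpow_of_exponent_ge h0 h1.le ?_
      have e1 : a' - min a a' ≤ |a' - a| := by
        rcases le_total a a' with h | h
        · rw [min_eq_left h]; exact le_abs_self _
        · rw [min_eq_right h, sub_self]; exact abs_nonneg _
      have e2 : v' - min v v' ≤ |v' - v| := by
        rcases le_total v v' with h | h
        · rw [min_eq_left h]; exact le_abs_self _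
        · rw [min_eq_right h, sub_self]; exact abs_nonneg _
      have := mul_le_mul_of_nonneg_left (add_le_add e1 e2) hCr
      simp only
      linarith
    have h3 := Finset.card_biUnion_le_card_mul S1 S2 _ hb
    have hp : 0 ≤ nmK0 * s ^ (-(q.Cr π * (|a' - a| + |v' - v|))) := mul_nonneg hK0 (Real.rpow_nonneg h0.le _)
    calc ((S1.biUnion S2).card : ℝ) ≤ ((S1.card * ⌊nmK0 * s ^ (-(q.Cr π * (|a' - a| + |v' - v|)))⌋₊ : ℕ) : ℝ) := by
          exact_mod_cast h3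
      _ = (S1.card : ℝ) * (⌊nmK0 * s ^ (-(q.Cr π * (|a' - a| + |v' - v|)))⌋₊ : ℝ) := by push_cast; ring
      _ ≤ nmK0 * (nmK0 * s ^ (-(q.Cr π * (|a' - a| + |v' - v|)))) :=
          mul_le_mul hS1 (Nat.floor_le hp) (Nat.cast_nonneg _) hK0
      _ = _ := by ring
  · rw [Finset.mem_biUnion]
    exact ⟨_, hm1 x hx, hm2 _ x rfl⟩

/-! ## on a documented configuration -/

section doc

variable (D : SfDoc) (π : SfPar) {q : NmQ} (hq : q.Ok π) (h0 : 0 < D.s) (h1 : D.s < 1)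

include hq h0 h1

theorem nm_nval_cmp (a v a' v' : ℝ) :
    (D.P 1).NVal (fun _ => True) (D.nm π q a' v') (D.nm π q a v) (nmK0 ^ 2 * D.s ^ (-(q.Cr π * (|a' - a| + |v' - v|)))) := by
  intro ω₀
  obtain ⟨S, hS, hmem⟩ := nm_refine_cmp h0 h1 hq a v a' v' (D.nm π q a v ω₀)
  exact ⟨S, hS, fun ω _ _ h => hmem _ h⟩

theorem nm_nval_up {a v a' v' : ℝ} (ha : a ≤ a') (hv : v ≤ v') :
    (D.P 1).NVal (fun _ => True) (D.nm π q a v) (D.nm π q a' v') nmK0 := by
  intro ω₀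
  have hG : (⟨D.s, π, q, a, v, a', v'⟩ : NmG).Ok := ⟨h0, h1, hq, ha, hv⟩
  obtain ⟨S, hS, hmem⟩ := nm_refine_up hG (D.nm π q a' v' ω₀)
  exact ⟨S, hS, fun ω _ _ h => hmem _ h⟩

/-- conditional entropy of one name given another -/
theorem nm_entC_cmp (a v a' v' : ℝ) :
    (D.P 1).entC (D.nm π q a' v') (D.nm π q a v) ≤ 2 * Real.log nmK0 + q.Cr π * (|a' - a| + |v' - v|) * D.lgs := by
  refine (ent_entC_le_log_nval _ _ _ (nm_nval_cmp D π hq h0 h1 a v a' v')).trans (le_of_eq ?_)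
  have hK0 : (0 : ℝ) < nmK0 := by unfold nmK0; positivity
  rw [Real.log_mul (by positivity) (Real.rpow_pos_of_pos h0 _).ne', Real.log_pow, Real.log_rpow h0]
  unfold SfDoc.lgs lg
  rw [one_div, Real.log_inv]
  push_cast
  ring

/-- the entropy of the names is Lipschitz -/
theorem nm_ent_lip (a v a' v' : ℝ) :
    |(D.P 1).ent (D.nm π q a' v') - (D.P 1).ent (D.nm π q a v)| ≤ 2 * Real.log nmK0 + q.Cr π * (|a' - a| + |v' - v|) * D.lgs := by
  have e1 := nm_entC_cmp D π hq h0 h1 a v a' v'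
  have e2 := nm_entC_cmp D π hq h0 h1 a' v' a v
  rw [abs_sub_comm a a', abs_sub_comm v v'] at e2
  have f1 := ent_le_pair_left (D.P 1) (D.nm π q a' v') (D.nm π q a v)
  have f2 := ent_le_pair_left (D.P 1) (D.nm π q a v) (D.nm π q a' v')
  unfold FLaw.entC at e1 e2
  rw [abs_le]
  constructor <;> linarith

/-- almost monotone -/
theorem nm_ent_mono {a v a' v' : ℝ} (ha : a ≤ a') (hv : v ≤ v') :
    (D.P 1).ent (D.nm π q a v) ≤ (D.P 1).ent (D.nm π q a' v') + Real.log nmK0 := by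
  have e1 := ent_entC_le_log_nval _ _ _ (nm_nval_up D π hq h0 h1 ha hv)
  have f2 := ent_le_pair_left (D.P 1) (D.nm π q a v) (D.nm π q a' v')
  unfold FLaw.entC at e1
  linarith

/-- conditioning on another name -/
theorem nm_entC_lip_cond {β : Type} (X : D.Row 1 → β) (a v a' v' : ℝ) :
    |(D.P 1).entC X (D.nm π q a' v') - (D.P 1).entC X (D.nm π q a v)| ≤ 2 * Real.log nmK0 + q.Cr π * (|a' - a| + |v' - v|) * D.lgs := by
  have e1 := nm_entC_cmp D π hq h0 h1 a v a' v'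
  have e2 := nm_entC_cmp D π hq h0 h1 a' v' a v
  rw [abs_sub_comm a a', abs_sub_comm v v'] at e2
  have f1 := nm_aux_entC_tri (D.P 1) X (D.nm π q a' v') (D.nm π q a v)
  have f2 := nm_aux_entC_tri (D.P 1) X (D.nm π q a v) (D.nm π q a' v')
  rw [abs_le]
  constructor <;> linarith

/-- conditioning on a finer name decreases the entropy up to `log nmK0` -/
theorem nm_entC_mono_cond {β : Type} (X : D.Row 1 → β) {a v a' v' : ℝ} (ha : a ≤ a') (hv : v ≤ v') :
    (D.P 1).entC X (D.nm π q a' v') ≤ (D.P 1).entC X (D.nm π q a v) + Real.log nmK0 := by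
  have e1 := ent_entC_le_log_nval _ _ _ (nm_nval_up D π hq h0 h1 ha hv)
  have f2 := nm_aux_entC_tri (D.P 1) X (D.nm π q a v) (D.nm π q a' v')
  linarith

end doc

theorem nm_geo_main_eqns_cite : True := by
  have := @nmVec.eq_1; have := @nmK0.eq_1; have := @nmKup.eq_1; have := @nmKdn.eq_1; have := @NmG.ex.eq_1
  trivial

end

end Claimed.Agent.R256
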