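import Claimed.Agent.R256.Nm.Defs

/-!
# Row 256, unit NM, sub-block NM-GEO (Lemma names:refinement, 04-canonical-names.tex l.141-192), file 1: CELL KIT AND COUNTING      (helper51; prefix `nm_`)

PAPER-FREE.   `nmWd s b = 2^(-nmLev s b) ∈ (s^b / 2, s^b]` is the mesh of the cells of depth `b`;  `nmVal s b n` = left end point of the bin `n`.
* kit: `nm_wd_pos`, `nm_wd_le`, `nm_wd_gt`, `nm_lev_mono`, `nm_rep_le`, `nm_rep_lt`, `nm_rep_abs`, `nm_cell_nest`, `nm_close_of_cell`, `nm_cell_close`, `nm_cell_zero`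
* steps: `nm_step_up`, `nm_step_dn` : a coarse number `r` and a fine number `r'` with `r - r' = known + O(s^b)`.
* counting: `nm_count` : a set of integer vectors in which the `i`-th entries of two vectors with the same earlier entries differ by `≤ K i` has `≤ ∏ (K i + 1)` elements.
-/

set_option autoImplicit false

namespace Claimed.Agent.R256

open Classical

noncomputable section

/-- the mesh of the cells of depth `b` -/
def nmWd (s b : ℝ) : ℝ := ((2 : ℝ) ^ nmLev s b)⁻¹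

/-- the left end point of the bin `n` of depth `b` -/
def nmVal (s b : ℝ) (n : ℤ) : ℝ := (n : ℝ) / (2 : ℝ) ^ nmLev s b

theorem nm_rep_val (s b x : ℝ) : nmRep s b x = nmVal s b (nmCell s b x) := rfl

theorem nm_wd_pos (s b : ℝ) : 0 < nmWd s b := by
  unfold nmWd; positivity

theorem nm_aux_pow {s : ℝ} (h0 : 0 < s) (b : ℝ) : s ^ b = ((2 : ℝ) ^ (b * Real.logb 2 (1 / s)))⁻¹ := by
  have h2 : (2 : ℝ) ^ (Real.logb 2 (1 / s)) = 1 / s :=
    Real.rpow_logb (by norm_num) (by norm_num) (by positivity)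
  rw [mul_comm, Real.rpow_mul (by norm_num), h2, one_div, Real.inv_rpow h0.le, inv_inv]

theorem nm_wd_le {s : ℝ} (h0 : 0 < s) (h1 : s < 1) (b : ℝ) : nmWd s b ≤ s ^ b := by
  rw [nm_aux_pow h0, nmWd, ← Real.rpow_intCast]
  apply inv_anti₀ (by positivity)
  exact Real.rpow_le_rpow_of_exponent_le (by norm_num) (Int.le_ceil _)

theorem nm_wd_gt {s : ℝ} (h0 : 0 < s) (h1 : s < 1) (b : ℝ) : s ^ b < 2 * nmWd s b := by
  rw [nm_aux_pow h0, nmWd, ← Real.rpow_intCast]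
  have hlt : ((nmLev s b : ℤ) : ℝ) < b * Real.logb 2 (1 / s) + 1 := Int.ceil_lt_add_one _
  have h3 : (2 : ℝ) ^ ((nmLev s b : ℤ) : ℝ) < (2 : ℝ) ^ (b * Real.logb 2 (1 / s)) * 2 := by
    calc (2 : ℝ) ^ ((nmLev s b : ℤ) : ℝ) < (2 : ℝ) ^ (b * Real.logb 2 (1 / s) + 1) :=
          Real.rpow_lt_rpow_of_exponent_lt (by norm_num) hlt
      _ = _ := by rw [Real.rpow_add (by norm_num), Real.rpow_one]
  have hp : 0 < (2 : ℝ) ^ ((nmLev s b : ℤ) : ℝ) := by positivity
  have hq : 0 < (2 : ℝ) ^ (b * Real.logb 2 (1 / s)) := by positivity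
  rw [inv_eq_one_div, ← div_eq_mul_inv, div_lt_div_iff₀ hq hp]
  linarith

theorem nm_aux_logb_pos {s : ℝ} (h0 : 0 < s) (h1 : s < 1) : 0 < Real.logb 2 (1 / s) := by
  apply Real.logb_pos (by norm_num)
  rw [lt_div_iff₀ h0]; linarith

theorem nm_lev_mono {s : ℝ} (h0 : 0 < s) (h1 : s < 1) {b b' : ℝ} (h : b ≤ b') : nmLev s b ≤ nmLev s b' := by
  unfold nmLev
  exact Int.ceil_mono (mul_le_mul_of_nonneg_right h (nm_aux_logb_pos h0 h1).le)

theorem nm_rep_le (s b x : ℝ) : nmRep s b x ≤ x := by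
  unfold nmRep nmCell
  rw [div_le_iff₀ (by positivity)]
  exact Int.floor_le _

theorem nm_rep_lt (s b x : ℝ) : x < nmRep s b x + nmWd s b := by
  unfold nmRep nmCell nmWd
  have hp : 0 < (2 : ℝ) ^ nmLev s b := by positivity
  rw [div_eq_mul_inv, ← add_one_mul, ← div_eq_mul_inv, lt_div_iff₀ hp]
  exact Int.lt_floor_add_one _

theorem nm_rep_abs {s : ℝ} (h0 : 0 < s) (h1 : s < 1) (b x : ℝ) : |x - nmRep s b x| ≤ s ^ b := by
  have h2 := nm_rep_le s b x
  have h3 := nm_rep_lt s b x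
  have h4 := nm_wd_le h0 h1 b
  rw [abs_le]; constructor <;> linarith [nm_wd_pos s b]

theorem nm_cell_zero (s b : ℝ) : nmCell s b 0 = 0 := by
  simp [nmCell]

theorem nm_rep_zero (s b : ℝ) : nmRep s b 0 = 0 := by
  simp [nmRep, nm_cell_zero]

/-- the coarse bin is a function of the fine bin -/
theorem nm_aux_nest {s : ℝ} (h0 : 0 < s) (h1 : s < 1) {b b' : ℝ} (h : b ≤ b') (x : ℝ) :
    nmCell s b x = ⌊((nmCell s b' x : ℤ) : ℝ) / ((2 ^ (nmLev s b' - nmLev s b).toNat : ℕ) : ℝ)⌋ := by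
  have hl := nm_lev_mono h0 h1 h
  set m : ℕ := (nmLev s b' - nmLev s b).toNat with hm
  have hm' : (m : ℤ) = nmLev s b' - nmLev s b := Int.toNat_of_nonneg (by linarith)
  have h2 : (2 : ℝ) ^ nmLev s b' = (2 : ℝ) ^ nmLev s b * ((2 ^ m : ℕ) : ℝ) := by
    have : nmLev s b' = nmLev s b + (m : ℤ) := by rw [hm']; ring
    rw [this, zpow_add₀ (by norm_num), zpow_natCast]; push_cast; ring
  unfold nmCell
  have hpos : (0 : ℝ) < ((2 ^ m : ℕ) : ℝ) := by positivity
  rw [h2, ← mul_assoc, Int.floor_div_natCast, Int.floor_intCast, ← Int.floor_div_natCast, mul_div_assoc,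
    div_self hpos.ne', mul_one]

theorem nm_cell_nest {s : ℝ} (h0 : 0 < s) (h1 : s < 1) {b b' : ℝ} (h : b ≤ b') {x y : ℝ}
    (hc : nmCell s b' x = nmCell s b' y) : nmCell s b x = nmCell s b y := by
  rw [nm_aux_nest h0 h1 h x, nm_aux_nest h0 h1 h y, hc]

theorem nm_close_of_cell {s : ℝ} (h0 : 0 < s) (h1 : s < 1) {b x y : ℝ} (hc : nmCell s b x = nmCell s b y) :
    |x - y| ≤ s ^ b := by
  have hr : nmRep s b x = nmRep s b y := by unfold nmRep; rw [hc]
  have h2 := nm_rep_le s b x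
  have h3 := nm_rep_lt s b x
  have h2' := nm_rep_le s b y
  have h3' := nm_rep_lt s b y
  have h4 := nm_wd_le h0 h1 b
  rw [abs_le]; constructor <;> linarith

theorem nm_cell_close {s : ℝ} (h0 : 0 < s) (h1 : s < 1) (b b' : ℝ) {x y K : ℝ} (h : |x - y| ≤ K * s ^ b) :
    |((nmCell s b' x - nmCell s b' y : ℤ) : ℝ)| ≤ 2 * K * s ^ (-(b' - b)) + 1 := by
  have hsb : 0 < s ^ b := Real.rpow_pos_of_pos h0 _
  have hsb' : 0 < s ^ b' := Real.rpow_pos_of_pos h0 _
  have hK : 0 ≤ K := by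
    by_contra hK
    rw [not_le] at hK
    have : K * s ^ b < 0 := mul_neg_of_neg_of_pos hK hsb
    linarith [abs_nonneg (x - y)]
  set M : ℝ := (2 : ℝ) ^ nmLev s b' with hM
  have hMpos : 0 < M := by positivity
  have hM2 : M * s ^ b' < 2 := by
    have := nm_wd_gt h0 h1 b'
    unfold nmWd at this
    rw [← hM] at this
    calc M * s ^ b' < M * (2 * M⁻¹) := mul_lt_mul_of_pos_left this hMpos
      _ = 2 := by field_simp
  have hpw : s ^ (-(b' - b)) = s ^ b / s ^ b' := by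
    rw [← Real.rpow_sub h0]; congr 1; ring
  have hd : |x * M - y * M| ≤ 2 * K * s ^ (-(b' - b)) := by
    rw [← sub_mul, abs_mul, abs_of_pos hMpos, hpw]
    calc |x - y| * M ≤ K * s ^ b * M := mul_le_mul_of_nonneg_right h hMpos.le
      _ = K * (s ^ b / s ^ b') * (M * s ^ b') := by field_simp
      _ ≤ K * (s ^ b / s ^ b') * 2 := by
          apply mul_le_mul_of_nonneg_left hM2.le
          positivity
      _ = _ := by ring
  unfold nmCell
  rw [← hM]
  have f1 := Int.floor_le (x * M)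
  have f2 := Int.lt_floor_add_one (x * M)
  have g1 := Int.floor_le (y * M)
  have g2 := Int.lt_floor_add_one (y * M)
  rw [abs_le] at hd
  push_cast
  rw [abs_le]; constructor <;> linarith [hd.1, hd.2]

theorem nm_pow_anti {s : ℝ} (h0 : 0 < s) (h1 : s < 1) {b b' : ℝ} (h : b ≤ b') : s ^ b' ≤ s ^ b :=
  Real.rpow_le_rpow_of_exponent_ge h0 h1.le h

theorem nm_step_up {s : ℝ} (h0 : 0 < s) (h1 : s < 1) {b b' : ℝ} (hb : b ≤ b') {r r' ρ ρ' kn K : ℝ}
    (hx : |r - r' - kn| ≤ K * s ^ b) (hy : |ρ - ρ' - kn| ≤ K * s ^ b) (hc : nmCell s b' r' = nmCell s b' ρ') :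
    |((nmCell s b r - nmCell s b ρ : ℤ) : ℝ)| ≤ 4 * K + 3 := by
  have h2 := nm_close_of_cell h0 h1 hc
  have h3 := nm_pow_anti h0 h1 hb
  have h4 : |r - ρ| ≤ (2 * K + 1) * s ^ b := by
    rw [abs_le] at hx hy h2 ⊢
    constructor <;> nlinarith [hx.1, hx.2, hy.1, hy.2, h2.1, h2.2]
  have h5 := nm_cell_close h0 h1 b b h4
  simp only [sub_self, neg_zero, Real.rpow_zero, mul_one] at h5
  linarith

theorem nm_step_dn {s : ℝ} (h0 : 0 < s) (h1 : s < 1) {b b' : ℝ} {r r' ρ ρ' kn K : ℝ}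
    (hx : |r - r' - kn| ≤ K * s ^ b) (hy : |ρ - ρ' - kn| ≤ K * s ^ b) (hc : nmCell s b r = nmCell s b ρ) :
    |((nmCell s b' r' - nmCell s b' ρ' : ℤ) : ℝ)| ≤ (4 * K + 2) * s ^ (-(b' - b)) + 1 := by
  have h2 := nm_close_of_cell h0 h1 hc
  have h4 : |r' - ρ'| ≤ (2 * K + 1) * s ^ b := by
    rw [abs_le] at hx hy h2 ⊢
    constructor <;> nlinarith [hx.1, hx.2, hy.1, hy.2, h2.1, h2.2]
  have h5 := nm_cell_close h0 h1 b b' h4
  calc _ ≤ 2 * (2 * K + 1) * s ^ (-(b' - b)) + 1 := h5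
    _ = _ := by ring

theorem nm_count_one (K : ℝ) (hK : 0 ≤ K) (S : Set ℤ) (h : ∀ x ∈ S, ∀ y ∈ S, |((x - y : ℤ) : ℝ)| ≤ K) :
    S.Finite ∧ (S.ncard : ℝ) ≤ K + 1 := by
  rcases S.eq_empty_or_nonempty with rfl | ⟨x0, hx0⟩
  · simp only [Set.finite_empty, Set.ncard_empty, Nat.cast_zero, true_and]; linarith
  have hle : ∀ x ∈ S, ∀ y ∈ S, x - y ≤ ⌊K⌋ := by
    intro x hx y hy
    exact Int.le_floor.mpr (le_trans (le_abs_self _) (h x hx y hy))
  have hsub : S ⊆ Set.Icc (x0 - ⌊K⌋) (x0 + ⌊K⌋) := by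
    intro x hx
    have h1 := hle x hx x0 hx0
    have h2 := hle x0 hx0 x hx
    constructor <;> linarith
  have hfin : S.Finite := (Set.finite_Icc _ _).subset hsub
  refine ⟨hfin, ?_⟩
  obtain ⟨m, hm, hmin⟩ := Set.exists_min_image S id hfin ⟨x0, hx0⟩
  have hsub2 : S ⊆ ↑(Finset.Icc m (m + ⌊K⌋)) := by
    intro x hx
    have h1 := hle x hx m hm
    have h2 : m ≤ x := hmin x hx
    simp only [Finset.coe_Icc, Set.mem_Icc]
    constructor <;> linarith
  have h3 := Set.ncard_le_ncard hsub2 (Finset.finite_toSet _)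
  rw [Set.ncard_coe_finset, Int.card_Icc] at h3
  have h4 : (m + ⌊K⌋ + 1 - m).toNat = (⌊K⌋ + 1).toNat := by congr 1; ring
  rw [h4] at h3
  have h5 : (0 : ℤ) ≤ ⌊K⌋ := Int.floor_nonneg.mpr hK
  have h6 : (((⌊K⌋ + 1).toNat : ℕ) : ℝ) = (⌊K⌋ : ℝ) + 1 := by
    have : (((⌊K⌋ + 1).toNat : ℕ) : ℤ) = ⌊K⌋ + 1 := Int.toNat_of_nonneg (by linarith)
    exact_mod_cast this
  calc (S.ncard : ℝ) ≤ (((⌊K⌋ + 1).toNat : ℕ) : ℝ) := by exact_mod_cast h3
    _ = (⌊K⌋ : ℝ) + 1 := h6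
    _ ≤ K + 1 := by linarith [Int.floor_le K]

theorem nm_count (n : ℕ) (K : Fin n → ℝ) (hK : ∀ i, 0 ≤ K i) (S : Set (Fin n → ℤ))
    (h : ∀ x ∈ S, ∀ y ∈ S, ∀ i, (∀ j < i, x j = y j) → |((x i - y i : ℤ) : ℝ)| ≤ K i) :
    S.Finite ∧ (S.ncard : ℝ) ≤ ∏ i, (K i + 1) := by
  induction n with
  | zero =>
    have hs : S.Subsingleton := fun x _ y _ => Subsingleton.elim x y
    refine ⟨hs.finite, ?_⟩
    simp only [Finset.univ_eq_empty, Finset.prod_empty]
    have := Set.ncard_le_one_iff_subsingleton.mpr hs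
    exact_mod_cast this
  | succ n ih =>
    set S0 : Set ℤ := (fun x : Fin (n + 1) → ℤ => x 0) '' S with hS0
    have h0 : S0.Finite ∧ (S0.ncard : ℝ) ≤ K 0 + 1 := by
      apply nm_count_one (K 0) (hK 0)
      rintro _ ⟨x, hx, rfl⟩ _ ⟨y, hy, rfl⟩
      exact h x hx y hy 0 (fun j hj => absurd hj (Fin.not_lt_zero j))
    set Sz : ℤ → Set (Fin n → ℤ) := fun z => Fin.tail '' {x ∈ S | x 0 = z} with hSz
    set Pr : ℝ := ∏ i : Fin n, (K i.succ + 1) with hPr
    have hz : ∀ z, (Sz z).Finite ∧ ((Sz z).ncard : ℝ) ≤ Pr := by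
      intro z
      apply ih (fun i => K i.succ) (fun i => hK _)
      rintro _ ⟨x, ⟨hx, hxz⟩, rfl⟩ _ ⟨y, ⟨hy, hyz⟩, rfl⟩ i hi
      apply h x hx y hy i.succ
      intro j hj
      refine Fin.cases ?_ (fun j' hj' => ?_) j hj
      · intro _; rw [hxz, hyz]
      · exact hi j' (Fin.succ_lt_succ_iff.mp hj')
    have hcov : S ⊆ ⋃ z ∈ S0, (fun w : Fin n → ℤ => (Fin.cons z w : Fin (n + 1) → ℤ)) '' (Sz z) := by
      intro x hx
      simp only [Set.mem_iUnion]
      refine ⟨x 0, ⟨x, hx, rfl⟩, Fin.tail x, ⟨x, ⟨hx, rfl⟩, rfl⟩, ?_⟩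
      exact Fin.cons_self_tail x
    have hfin : S.Finite := (h0.1.biUnion (fun z _ => (hz z).1.image _)).subset hcov
    refine ⟨hfin, ?_⟩
    have hPr0 : 0 ≤ Pr := Finset.prod_nonneg (fun i _ => by linarith [hK i.succ])
    have hcard := Finset.card_le_mul_card_image (f := fun x : Fin (n + 1) → ℤ => x 0) hfin.toFinset ⌊Pr⌋₊ (by
      intro z _
      have h1 : ((hfin.toFinset.filter fun x => x 0 = z).card : ℝ) ≤ Pr := by
        have h2 : (hfin.toFinset.filter fun x => x 0 = z).card ≤ (Sz z).ncard := by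
          rw [← Set.ncard_coe_finset]
          refine Set.ncard_le_ncard_of_injOn Fin.tail ?_ ?_ (hz z).1
          · intro x hx
            simp only [Finset.coe_filter, Set.Finite.mem_toFinset] at hx
            exact ⟨x, hx, rfl⟩
          · intro x hx y hy hxy
            simp only [Finset.coe_filter, Set.Finite.mem_toFinset] at hx hy
            rw [← Fin.cons_self_tail x, ← Fin.cons_self_tail y, hxy, hx.2, hy.2]
        calc ((hfin.toFinset.filter fun x => x 0 = z).card : ℝ) ≤ ((Sz z).ncard : ℝ) := by exact_mod_cast h2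
          _ ≤ Pr := (hz z).2
      exact Nat.le_floor h1)
    have himg : ((hfin.toFinset.image fun x : Fin (n + 1) → ℤ => x 0).card : ℝ) ≤ K 0 + 1 := by
      have : (hfin.toFinset.image fun x : Fin (n + 1) → ℤ => x 0).card = S0.ncard := by
        rw [← Set.ncard_coe_finset]; congr 1
        simp [hS0]
      rw [this]; exact h0.2
    rw [Fin.prod_univ_succ, Set.ncard_eq_toFinset_card S hfin]
    calc (hfin.toFinset.card : ℝ) ≤ ((⌊Pr⌋₊ * (hfin.toFinset.image fun x : Fin (n + 1) → ℤ => x 0).card : ℕ) : ℝ) := by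
          exact_mod_cast hcard
      _ = (⌊Pr⌋₊ : ℝ) * ((hfin.toFinset.image fun x : Fin (n + 1) → ℤ => x 0).card : ℝ) := by push_cast; ring
      _ ≤ Pr * (K 0 + 1) := by
          apply mul_le_mul (Nat.floor_le hPr0) himg (by positivity) hPr0
      _ = _ := by ring

theorem nm_geo_cell_eqns_cite : True := by
  have := @nmWd.eq_1; have := @nmVal.eq_1
  trivial

end

end Claimed.Agent.R256
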