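import Claimed.Agent.R256.Nm.Geo.Cell

/-!
# Row 256, unit NM, sub-block NM-GEO (Lemma names:refinement, 04-canonical-names.tex l.141-192), file 2: THE NINE COMPARISON ESTIMATES      (helper51; prefix `nm_`)

PAPER-FREE.   ONE raw datum `x : NmRaw`, a coarse parameter `(a, v)` and a fine one `(a', v')`, `a ≤ a'`, `v ≤ v'` (`G : NmG`), `c = G.lo x`, `c' = G.hi x` its two names.
Order of the entries:  `kb, t, k, R, X, B, L, Y, N, D`.    For every entry, with `r` = the real number whose bin is the coarse entry and `r'` = the one of the fine entry,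

      `| r - r' - kn c c' | ≤ K * s ^ (coarse depth)`,

where the KNOWN term `kn c c'` reads only EARLIER entries of the two names.   So the same nine estimates give both directions of the lemma (`Geo/Main.lean`).   NO boundedness hypothesis, no sign hypothesis on `a`, `v`.

Notation of the plans:  `τ = t_{a'} - t_a ∈ [0, s^a)`,  `B' = B_{t_{a'}}`, `Y' = Y_{t_{a'}}`,  `Δk = k_a - k_{a'}`,  `ΔR = R_a + τ k_a - R_{a'}`,  `ΔL = L - L'`,  `x, x'` the two representatives of `X`,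
`ξ = X - x'`, `ζ = B' - B0'`, `υ = (Y' - 2 x' B') - y0'`  (`|ξ| ≤ s^v'`, `|ζ| ≤ s^(a'+v')`, `|υ| ≤ s^(a'+2v')`),  `σ = G.cs` (`= s^(b a)`, `0` if there is no curvature cut).
IDENTITIES (all by `ring` after unfolding `Bt`, `Yt`, `Dt`):
* `B_{t_a} = B' - τ X`,  `Y_{t_a} = Y' - τ X²`,  `D_{t_a} = D' - τ N`
* `Lraw - Lraw' = -2 ΔR X + 2 Δk B'`
* `y - y' = 2 (x' - x) B' - τ (X - x)² + τ x²`
* `Nres - Nres' = -(ΔL X + ΔR X² + Δk (Y' - 2 X B'))`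
* `Dres - Dres' = -τ Nres - (ΔL B' + ΔR Y' - Δk B'²)`
-/

set_option autoImplicit false

namespace Claimed.Agent.R256

open Classical

noncomputable section

/-- admissible queries (l.104-121: all derivatives of active branches are `≥ 0`, a nonconstant cut has `b' ≥ 1`, the pure linear template has no curvature cut) -/
structure NmQ.Ok (q : NmQ) (π : SfPar) : Prop where
  bs0 : 0 ≤ q.ds.bs
  bs1 : q.ds.cut = NmCut.slope → 1 ≤ q.ds.bs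
  b1 : q.tp ≠ NmTp.quad → 0 ≤ π.q - π.J
  pl : q.tp = NmTp.plin → q.ds.cut = NmCut.none
  g0 : 0 ≤ q.g

/-- the constant of the relative branching exponent -/
def NmQ.Cr (q : NmQ) (π : SfPar) : ℝ := 20 * (1 + q.ds.bs + |π.q - π.J|)

/-! ## the real numbers coded by a name -/

namespace NmNm

variable (c : NmNm) (s : ℝ) (π : SfPar) (q : NmQ) (a v : ℝ)

def tv : ℝ := nmVal s a c.t
def Rv : ℝ := nmVal s (q.ds.b a) c.R
def kv : ℝ := nmVal s (q.ds.b a - a) c.k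
def Lv : ℝ := nmVal s (q.l π a v) c.L
def Xv : ℝ := nmVal s v c.X
def Bv : ℝ := nmVal s (a + v) c.B
def Yv : ℝ := nmVal s (a + 2 * v) c.Y
def Nv : ℝ := nmVal s (q.w π a v - q.g) c.N
def Dv : ℝ := nmVal s (a + q.w π a v - q.g) c.D

end NmNm

/-- a coarse and a fine parameter -/
structure NmG where
  s : ℝ
  π : SfPar
  q : NmQ
  a : ℝ
  v : ℝ
  a' : ℝ
  v' : ℝ

namespace NmG

/-- admissible comparison -/
structure Ok (G : NmG) : Prop where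
  s0 : 0 < G.s
  s1 : G.s < 1
  q : G.q.Ok G.π
  a : G.a ≤ G.a'
  v : G.v ≤ G.v'

variable (G : NmG) (c c' : NmNm)

/-- the coarse name -/
def lo (x : NmRaw) : NmNm := x.name G.s G.π G.q G.a G.v
/-- the fine name -/
def hi (x : NmRaw) : NmNm := x.name G.s G.π G.q G.a' G.v'

/-- `τ = t_{a'} - t_a` -/
def tau : ℝ := c'.tv G.s G.a' - c.tv G.s G.a
/-- `Δk` -/
def dk : ℝ := c.kv G.s G.q G.a - c'.kv G.s G.q G.a'
/-- `ΔR` (both at the fine time) -/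
def dR : ℝ := c.Rv G.s G.q G.a + G.tau c c' * c.kv G.s G.q G.a - c'.Rv G.s G.q G.a'
/-- `ΔL` -/
def dL : ℝ := c.Lv G.s G.π G.q G.a G.v - c'.Lv G.s G.π G.q G.a' G.v'

/-- the curvature scale -/
def cs : ℝ :=
  match G.q.ds.cut with
  | NmCut.none => 0
  | _ => G.s ^ (G.q.ds.b G.a)

def knR : ℝ := -(G.tau c c' * c.kv G.s G.q G.a)
def knB : ℝ := -(G.tau c c' * c.Xv G.s G.v)
def knL : ℝ := -2 * G.dR c c' * c.Xv G.s G.v + 2 * G.dk c c' * c'.Bv G.s G.a' G.v'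
def knY : ℝ := 2 * (c'.Xv G.s G.v' - c.Xv G.s G.v) * c'.Bv G.s G.a' G.v' + G.tau c c' * c.Xv G.s G.v ^ 2
def knN : ℝ := -(G.dL c c' * c'.Xv G.s G.v' + G.dR c c' * c'.Xv G.s G.v' ^ 2 + G.dk c c' * c'.Yv G.s G.a' G.v')
def knD : ℝ := -(G.tau c c' * c.Nv G.s G.π G.q G.a G.v)
  - (G.dL c c' * c'.Bv G.s G.a' G.v' + G.dR c c' * c'.Yv G.s G.a' G.v'
      + 2 * G.dR c c' * c'.Xv G.s G.v' * c'.Bv G.s G.a' G.v' - G.dk c c' * c'.Bv G.s G.a' G.v' ^ 2)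

end NmG

/-! ## exponents -/

theorem nm_w_eq (q : NmQ) (π : SfPar) (a v : ℝ) : q.w π a v = q.l π a v + v := by
  obtain ⟨ds, tp, g⟩ := q
  cases tp
  · simp only [NmQ.w, NmQ.l]
    ring
  · rfl
  · rfl

theorem nm_b_mono {G : NmG} (hG : G.Ok) : G.q.ds.b G.a ≤ G.q.ds.b G.a' := by
  unfold NmDs.b
  have h1 := mul_le_mul_of_nonneg_left (sub_le_sub_right hG.a G.q.ds.De) hG.q.bs0
  linarith

theorem nm_gc_b1_mono {G : NmG} (hG : G.Ok) (h : G.q.tp ≠ NmTp.quad) : G.π.b1 G.a ≤ G.π.b1 G.a' := by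
  unfold SfPar.b1
  exact mul_le_mul_of_nonneg_left (by linarith [hG.a]) (hG.q.b1 h)

theorem nm_l_mono {G : NmG} (hG : G.Ok) : G.q.l G.π G.a G.v ≤ G.q.l G.π G.a' G.v' := by
  have hb := nm_b_mono hG
  have hv := hG.v
  unfold NmQ.l
  cases h : G.q.tp with
  | quad =>
    simp only
    linarith
  | clip =>
    have h1 := nm_gc_b1_mono hG (by rw [h]; exact fun h' => NmTp.noConfusion h')
    simp only
    exact min_le_min (by linarith) h1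
  | plin =>
    have h1 := nm_gc_b1_mono hG (by rw [h]; exact fun h' => NmTp.noConfusion h')
    simp only
    exact h1

theorem nm_w_mono {G : NmG} (hG : G.Ok) : G.q.w G.π G.a G.v ≤ G.q.w G.π G.a' G.v' := by
  rw [nm_w_eq, nm_w_eq]
  linarith [nm_l_mono hG, hG.v]

/-- `l' - l ≤ (1 + bs + |q - J|) (Δa + Δv)` -/
theorem nm_l_lip {G : NmG} (hG : G.Ok) :
    G.q.l G.π G.a' G.v' - G.q.l G.π G.a G.v ≤ (1 + G.q.ds.bs + |G.π.q - G.π.J|) * ((G.a' - G.a) + (G.v' - G.v)) := by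
  have ha : 0 ≤ G.a' - G.a := by linarith [hG.a]
  have hv : 0 ≤ G.v' - G.v := by linarith [hG.v]
  have hbs := hG.q.bs0
  have habs := abs_nonneg (G.π.q - G.π.J)
  have hle := le_abs_self (G.π.q - G.π.J)
  have e1 : (G.q.ds.b G.a' + G.v') - (G.q.ds.b G.a + G.v) = G.q.ds.bs * (G.a' - G.a) + (G.v' - G.v) := by
    unfold NmDs.b
    ring
  have e2 : G.π.b1 G.a' - G.π.b1 G.a = (G.π.q - G.π.J) * (G.a' - G.a) := by
    unfold SfPar.b1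
    ring
  have k1 : G.q.ds.bs * (G.a' - G.a) + (G.v' - G.v)
      ≤ (1 + G.q.ds.bs + |G.π.q - G.π.J|) * ((G.a' - G.a) + (G.v' - G.v)) := by
    nlinarith [mul_nonneg hbs hv, mul_nonneg habs ha, mul_nonneg habs hv]
  have k2 : (G.π.q - G.π.J) * (G.a' - G.a)
      ≤ (1 + G.q.ds.bs + |G.π.q - G.π.J|) * ((G.a' - G.a) + (G.v' - G.v)) := by
    nlinarith [mul_le_mul_of_nonneg_right hle ha, mul_nonneg hbs ha, mul_nonneg hbs hv, mul_nonneg habs hv]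
  unfold NmQ.l
  cases h : G.q.tp with
  | quad =>
    simp only
    linarith
  | clip =>
    simp only
    rcases le_total (G.q.ds.b G.a + G.v) (G.π.b1 G.a) with h1 | h1
    · rw [min_eq_left h1]
      linarith [min_le_left (G.q.ds.b G.a' + G.v') (G.π.b1 G.a')]
    · rw [min_eq_right h1]
      linarith [min_le_right (G.q.ds.b G.a' + G.v') (G.π.b1 G.a')]
  | plin =>
    simp only
    linarith

theorem nm_gc_cs_eq {G : NmG} (h : G.q.ds.cut ≠ NmCut.none) : G.cs = G.s ^ (G.q.ds.b G.a) := by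
  unfold NmG.cs
  cases hc : G.q.ds.cut with
  | slope => rfl
  | const => rfl
  | none => exact absurd hc h

theorem nm_gc_cs_none {G : NmG} (h : G.q.ds.cut = NmCut.none) : G.cs = 0 := by
  unfold NmG.cs
  rw [h]

theorem nm_cs_nonneg {G : NmG} (hG : G.Ok) : 0 ≤ G.cs := by
  by_cases hc : G.q.ds.cut = NmCut.none
  · rw [nm_gc_cs_none hc]
  · rw [nm_gc_cs_eq hc]
    exact Real.rpow_nonneg hG.s0.le _

/-- `σ s^v ≤ s^l` -/
theorem nm_cs_l {G : NmG} (hG : G.Ok) : G.cs * G.s ^ G.v ≤ G.s ^ (G.q.l G.π G.a G.v) := by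
  have hpos := Real.rpow_nonneg hG.s0.le (G.q.l G.π G.a G.v)
  by_cases hc : G.q.ds.cut = NmCut.none
  · rw [nm_gc_cs_none hc, zero_mul]
    exact hpos
  · rw [nm_gc_cs_eq hc, ← Real.rpow_add hG.s0]
    apply nm_pow_anti hG.s0 hG.s1
    unfold NmQ.l
    cases h : G.q.tp with
    | quad => exact le_rfl
    | clip => exact min_le_left _ _
    | plin => exact absurd (hG.q.pl h) hc

/-! ### helpers of GEO-C (prefix `nm_gc_`) -/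

/-- nested grids: the left end point of the finer cell is to the right -/
theorem nm_gc_rep_mono {s : ℝ} (h0 : 0 < s) (h1 : s < 1) {b b' : ℝ} (h : b ≤ b') (x : ℝ) : nmRep s b x ≤ nmRep s b' x := by
  have hl := nm_lev_mono h0 h1 h
  obtain ⟨m, hm⟩ : ∃ m : ℕ, (m : ℤ) = nmLev s b' - nmLev s b :=
    ⟨(nmLev s b' - nmLev s b).toNat, Int.toNat_of_nonneg (by linarith)⟩
  have h2 : (2 : ℝ) ^ nmLev s b' = (2 : ℝ) ^ nmLev s b * (2 : ℝ) ^ m := by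
    have : nmLev s b' = nmLev s b + (m : ℤ) := by rw [hm]; ring
    rw [this, zpow_add₀ (by norm_num), zpow_natCast]
  have hp : 0 < (2 : ℝ) ^ nmLev s b := by positivity
  have hp' : 0 < (2 : ℝ) ^ nmLev s b' := by positivity
  unfold nmRep nmCell
  rw [div_le_div_iff₀ hp hp']
  have h3 : ((⌊x * (2 : ℝ) ^ nmLev s b⌋ * 2 ^ m : ℤ) : ℝ) ≤ x * (2 : ℝ) ^ nmLev s b' := by
    push_cast
    rw [h2, ← mul_assoc]
    exact mul_le_mul_of_nonneg_right (Int.floor_le _) (by positivity)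
  have h4 : ⌊x * (2 : ℝ) ^ nmLev s b⌋ * 2 ^ m ≤ ⌊x * (2 : ℝ) ^ nmLev s b'⌋ := Int.le_floor.2 h3
  have h5 : ((⌊x * (2 : ℝ) ^ nmLev s b⌋ : ℤ) : ℝ) * 2 ^ m ≤ ((⌊x * (2 : ℝ) ^ nmLev s b'⌋ : ℤ) : ℝ) := by
    exact_mod_cast h4
  calc ((⌊x * (2 : ℝ) ^ nmLev s b⌋ : ℤ) : ℝ) * (2 : ℝ) ^ nmLev s b'
      = (((⌊x * (2 : ℝ) ^ nmLev s b⌋ : ℤ) : ℝ) * 2 ^ m) * (2 : ℝ) ^ nmLev s b := by rw [h2]; ring
    _ ≤ ((⌊x * (2 : ℝ) ^ nmLev s b'⌋ : ℤ) : ℝ) * (2 : ℝ) ^ nmLev s b := mul_le_mul_of_nonneg_right h5 hp.le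

theorem nm_gc_ka_zero (x : NmRaw) (s : ℝ) (q : NmQ) (a : ℝ) (h : q.ds.cut ≠ NmCut.slope) : x.ka s q a = 0 := by
  have e : x.kraw q = 0 := by
    unfold NmRaw.kraw
    cases hc : q.ds.cut with
    | slope => exact absurd hc h
    | const => rfl
    | none => rfl
  unfold NmRaw.ka
  rw [e, nm_rep_zero]

theorem nm_gc_Rraw_const (x : NmRaw) (s : ℝ) (q : NmQ) (a a' : ℝ) (h : q.ds.cut ≠ NmCut.slope) :
    x.Rraw s q a = x.Rraw s q a' := by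
  unfold NmRaw.Rraw
  cases hc : q.ds.cut with
  | slope => exact absurd hc h
  | const => rfl
  | none => rfl

theorem nm_gc_tau (G : NmG) (x : NmRaw) : G.tau (G.lo x) (G.hi x) = x.ta G.s G.a' - x.ta G.s G.a := rfl

/-! ## the estimates -/

section est

variable {G : NmG} (hG : G.Ok) (x : NmRaw)
include hG

/-- `0 ≤ τ ≤ s^a` : `t_a ≤ t_{a'} ≤ T < t_a + s^a` (nested cells) -/
theorem nm_est_tau : 0 ≤ G.tau (G.lo x) (G.hi x) ∧ G.tau (G.lo x) (G.hi x) ≤ G.s ^ G.a := by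
  have e : G.tau (G.lo x) (G.hi x) = nmRep G.s G.a' x.T - nmRep G.s G.a x.T := rfl
  rw [e]
  have h1 := nm_gc_rep_mono hG.s0 hG.s1 hG.a x.T
  have h2 := nm_rep_le G.s G.a' x.T
  have h3 := nm_rep_lt G.s G.a x.T
  have h4 := nm_wd_le hG.s0 hG.s1 G.a
  constructor <;> linarith

/-- slope: `-τ K + τ k_a`; otherwise `0` -/
theorem nm_est_R :
    |x.Rraw G.s G.q G.a - x.Rraw G.s G.q G.a' - G.knR (G.lo x) (G.hi x)| ≤ 1 * G.s ^ (G.q.ds.b G.a) := by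
  obtain ⟨t0, t1⟩ := nm_est_tau hG x
  have eτ := nm_gc_tau G x
  have ekn : G.knR (G.lo x) (G.hi x) = -(G.tau (G.lo x) (G.hi x) * x.ka G.s G.q G.a) := rfl
  have hpos := Real.rpow_nonneg hG.s0.le (G.q.ds.b G.a)
  rw [ekn, one_mul]
  by_cases hc : G.q.ds.cut = NmCut.slope
  · have e1 : ∀ a, x.Rraw G.s G.q a = x.be + (x.ta G.s a - x.Te) * x.K := by
      intro a
      unfold NmRaw.Rraw
      rw [hc]
    have e3 : x.kraw G.q = x.K := by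
      unfold NmRaw.kraw
      rw [hc]
    have h1 : |x.K - x.ka G.s G.q G.a| ≤ G.s ^ (G.q.ds.b G.a - G.a) := by
      have h := nm_rep_abs hG.s0 hG.s1 (G.q.ds.b G.a - G.a) (x.kraw G.q)
      unfold NmRaw.ka
      rw [e3] at h ⊢
      exact h
    have e4 : x.be + (x.ta G.s G.a - x.Te) * x.K - (x.be + (x.ta G.s G.a' - x.Te) * x.K)
        - -(G.tau (G.lo x) (G.hi x) * x.ka G.s G.q G.a) = -(G.tau (G.lo x) (G.hi x) * (x.K - x.ka G.s G.q G.a)) := by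
      rw [eτ]
      ring
    rw [e1, e1, e4, abs_neg, abs_mul, abs_of_nonneg t0]
    have e5 : G.s ^ (G.q.ds.b G.a) = G.s ^ G.a * G.s ^ (G.q.ds.b G.a - G.a) := by
      rw [← Real.rpow_add hG.s0]
      congr 1
      ring
    rw [e5]
    exact mul_le_mul t1 h1 (abs_nonneg _) (Real.rpow_nonneg hG.s0.le _)
  · rw [nm_gc_Rraw_const x G.s G.q G.a G.a' hc, nm_gc_ka_zero x _ _ _ hc]
    simpa using hpos

/-- `|Δk| ≤ 2 σ s^(-a)` (slope: `b - a` is nondecreasing; otherwise `Δk = 0`) -/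
theorem nm_est_dk : |G.dk (G.lo x) (G.hi x)| ≤ 2 * G.cs * G.s ^ (-G.a) := by
  have e : G.dk (G.lo x) (G.hi x) = x.ka G.s G.q G.a - x.ka G.s G.q G.a' := rfl
  rw [e]
  by_cases hc : G.q.ds.cut = NmCut.slope
  · have hcs : G.cs = G.s ^ (G.q.ds.b G.a) := nm_gc_cs_eq (by rw [hc]; exact fun h' => NmCut.noConfusion h')
    have h1 := nm_rep_abs hG.s0 hG.s1 (G.q.ds.b G.a - G.a) (x.kraw G.q)
    have h2 := nm_rep_abs hG.s0 hG.s1 (G.q.ds.b G.a' - G.a') (x.kraw G.q)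
    have hmono : G.q.ds.b G.a - G.a ≤ G.q.ds.b G.a' - G.a' := by
      unfold NmDs.b
      have h3 : 0 ≤ (G.q.ds.bs - 1) * (G.a' - G.a) := mul_nonneg (by linarith [hG.q.bs1 hc]) (by linarith [hG.a])
      nlinarith
    have h3 := nm_pow_anti hG.s0 hG.s1 hmono
    have h4 : G.s ^ (G.q.ds.b G.a - G.a) = G.s ^ (G.q.ds.b G.a) * G.s ^ (-G.a) := by
      rw [← Real.rpow_add hG.s0]
      congr 1
    rw [hcs, mul_assoc, ← h4]
    unfold NmRaw.ka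
    rw [abs_le] at h1 h2 ⊢
    constructor <;> linarith [h1.1, h1.2, h2.1, h2.2]
  · rw [nm_gc_ka_zero x _ _ _ hc, nm_gc_ka_zero x _ _ _ hc, sub_zero, abs_zero]
    have q1 := nm_cs_nonneg hG
    have q2 := Real.rpow_nonneg hG.s0.le (-G.a)
    positivity

/-- `|ΔR| ≤ 3 σ` -/
theorem nm_est_dR : |G.dR (G.lo x) (G.hi x)| ≤ 3 * G.cs := by
  have e : G.dR (G.lo x) (G.hi x)
      = x.Ra G.s G.q G.a + G.tau (G.lo x) (G.hi x) * x.ka G.s G.q G.a - x.Ra G.s G.q G.a' := rfl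
  rw [e]
  by_cases hc : G.q.ds.cut = NmCut.none
  · have r : ∀ a, x.Rraw G.s G.q a = 0 := by
      intro a
      unfold NmRaw.Rraw
      rw [hc]
    have R0 : ∀ a, x.Ra G.s G.q a = 0 := by
      intro a
      unfold NmRaw.Ra
      rw [r, nm_rep_zero]
    rw [R0, R0, nm_gc_ka_zero x _ _ _ (by rw [hc]; exact fun h' => NmCut.noConfusion h'), nm_gc_cs_none hc]
    simp
  · rw [nm_gc_cs_eq hc]
    have h0 := nm_est_R hG x
    have ekn : G.knR (G.lo x) (G.hi x) = -(G.tau (G.lo x) (G.hi x) * x.ka G.s G.q G.a) := rfl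
    rw [ekn, one_mul] at h0
    have h1 := nm_rep_abs hG.s0 hG.s1 (G.q.ds.b G.a) (x.Rraw G.s G.q G.a)
    have h2 := nm_rep_abs hG.s0 hG.s1 (G.q.ds.b G.a') (x.Rraw G.s G.q G.a')
    have h3 := nm_pow_anti hG.s0 hG.s1 (nm_b_mono hG)
    unfold NmRaw.Ra
    rw [abs_le] at h0 h1 h2 ⊢
    constructor <;> linarith [h0.1, h0.2, h1.1, h1.2, h2.1, h2.2]

theorem nm_est_B :
    |x.z.Bt (x.ta G.s G.a) - x.z.Bt (x.ta G.s G.a') - G.knB (G.lo x) (G.hi x)| ≤ 1 * G.s ^ (G.a + G.v) := by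
  obtain ⟨t0, t1⟩ := nm_est_tau hG x
  have eτ := nm_gc_tau G x
  have ekn : G.knB (G.lo x) (G.hi x) = -(G.tau (G.lo x) (G.hi x) * nmRep G.s G.v x.z.X) := rfl
  have h1 := nm_rep_abs hG.s0 hG.s1 G.v x.z.X
  have e : x.z.Bt (x.ta G.s G.a) - x.z.Bt (x.ta G.s G.a') - G.knB (G.lo x) (G.hi x)
      = -(G.tau (G.lo x) (G.hi x) * (x.z.X - nmRep G.s G.v x.z.X)) := by
    rw [ekn, eτ]
    unfold SfRay.Bt
    ring
  rw [e, abs_neg, abs_mul, abs_of_nonneg t0, one_mul, Real.rpow_add hG.s0]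
  exact mul_le_mul t1 h1 (abs_nonneg _) (Real.rpow_nonneg hG.s0.le _)

omit hG in
theorem nm_gd_mul {a b A B : ℝ} (ha : |a| ≤ A) (hb : |b| ≤ B) : |a * b| ≤ A * B := by
  rw [abs_mul]
  exact mul_le_mul ha hb (abs_nonneg _) ((abs_nonneg _).trans ha)

omit hG in
theorem nm_gd_L {dR dk e ζ σ A Sv Sav Sl : ℝ} (h1 : |dR| ≤ 3 * σ) (h2 : |dk| ≤ 2 * σ * A) (h3 : |e| ≤ Sv) (h4 : |ζ| ≤ Sav)
    (h5 : A * Sav = Sv) (h6 : σ * Sv ≤ Sl) : |-2 * dR * e + 2 * dk * ζ| ≤ 10 * Sl := by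
  have a1 : |dR * e| ≤ 3 * σ * Sv := nm_gd_mul h1 h3
  have a2 : |dk * ζ| ≤ 2 * σ * A * Sav := nm_gd_mul h2 h4
  have a3 : 2 * σ * A * Sav = 2 * (σ * Sv) := by rw [← h5]; ring
  rw [a3] at a2
  rw [abs_le] at a1 a2 ⊢
  constructor <;> linarith [a1.1, a1.2, a2.1, a2.2]

omit hG in
theorem nm_gd_N {dR dk ξ E0 υ σ A Sv Sa2v Sl Sw Swg : ℝ} (h1 : |dR| ≤ 3 * σ) (h2 : |dk| ≤ 2 * σ * A) (h3 : |ξ| ≤ Sv) (h4 : |E0| ≤ 2 * Sl)
    (h5 : |υ| ≤ Sa2v) (hv : 0 ≤ Sv) (h6 : A * Sa2v = Sv * Sv) (h7 : σ * Sv ≤ Sl) (h8 : Sl * Sv = Sw) (h9 : Sw ≤ Swg) :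
    |-(ξ * E0 - dR * ξ ^ 2 + dk * υ)| ≤ 7 * Swg := by
  have a1 : |ξ * E0| ≤ Sv * (2 * Sl) := nm_gd_mul h3 h4
  have a2 : |dR * (ξ * ξ)| ≤ 3 * σ * (Sv * Sv) := nm_gd_mul h1 (nm_gd_mul h3 h3)
  have a3 : |dk * υ| ≤ 2 * σ * A * Sa2v := nm_gd_mul h2 h5
  have a4 : 2 * σ * A * Sa2v = 2 * (σ * Sv * Sv) := by
    calc 2 * σ * A * Sa2v = 2 * σ * (A * Sa2v) := by ring
      _ = _ := by rw [h6]; ring
  rw [a4] at a3
  have a5 : σ * Sv * Sv ≤ Sw := by rw [← h8]; exact mul_le_mul_of_nonneg_right h7 hv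
  rw [abs_le] at a1 a2 a3 ⊢
  constructor <;> nlinarith [a1.1, a1.2, a2.1, a2.2, a3.1, a3.2]

omit hG in
theorem nm_gd_D {τ n dR dk ξ ζ E0 υ σ A Sa Sv Sav Sa2v Sl Swg Saw Sawg : ℝ} (h0 : |τ| ≤ Sa) (hn : |n| ≤ Swg) (h1 : |dR| ≤ 3 * σ)
    (h2 : |dk| ≤ 2 * σ * A) (h3 : |ξ| ≤ Sv) (h3' : |ζ| ≤ Sav) (h4 : |E0| ≤ 2 * Sl) (h5 : |υ| ≤ Sa2v) (hav : 0 ≤ Sav)
    (h6 : A * Sav = Sv) (h6' : Sa2v = Sv * Sav) (h7 : σ * Sv ≤ Sl) (h8 : Sl * Sav = Saw) (h9 : Saw ≤ Sawg) (h10 : Sa * Swg = Sawg) :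
    |-(τ * n) - (ζ * E0 - 2 * dR * ξ * ζ + dk * ζ ^ 2 + dR * υ)| ≤ 14 * Sawg := by
  have a0 : |τ * n| ≤ Sa * Swg := nm_gd_mul h0 hn
  have a1 : |ζ * E0| ≤ Sav * (2 * Sl) := nm_gd_mul h3' h4
  have a2 : |dR * (ξ * ζ)| ≤ 3 * σ * (Sv * Sav) := nm_gd_mul h1 (nm_gd_mul h3 h3')
  have a3 : |dk * (ζ * ζ)| ≤ 2 * σ * A * (Sav * Sav) := nm_gd_mul h2 (nm_gd_mul h3' h3')
  have a4 : |dR * υ| ≤ 3 * σ * Sa2v := nm_gd_mul h1 h5
  have e3 : 2 * σ * A * (Sav * Sav) = 2 * (σ * Sv * Sav) := by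
    calc 2 * σ * A * (Sav * Sav) = 2 * σ * (A * Sav) * Sav := by ring
      _ = _ := by rw [h6]; ring
  rw [e3] at a3
  rw [h6'] at a4
  rw [h10] at a0
  have a5 : σ * Sv * Sav ≤ Saw := by rw [← h8]; exact mul_le_mul_of_nonneg_right h7 hav
  rw [abs_le] at a0 a1 a2 a3 a4 ⊢
  constructor <;> nlinarith [a0.1, a0.2, a1.1, a1.2, a2.1, a2.2, a3.1, a3.2, a4.1, a4.2]

omit hG in
/-- `Lraw - Lraw' = -2 ΔR X + 2 Δk B'` -/
theorem nm_gd_Lid (G : NmG) (x : NmRaw) :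
    x.Lraw G.s G.q G.a - x.Lraw G.s G.q G.a'
      = -2 * G.dR (G.lo x) (G.hi x) * x.z.X + 2 * G.dk (G.lo x) (G.hi x) * x.z.Bt (x.ta G.s G.a') := by
  have e1 : G.dR (G.lo x) (G.hi x) = x.Ra G.s G.q G.a + (x.ta G.s G.a' - x.ta G.s G.a) * x.ka G.s G.q G.a - x.Ra G.s G.q G.a' := rfl
  have e2 : G.dk (G.lo x) (G.hi x) = x.ka G.s G.q G.a - x.ka G.s G.q G.a' := rfl
  rw [e1, e2]
  unfold NmRaw.Lraw SfRay.Bt
  ring

/-- error `2 |ΔR| |X - x| + 2 |Δk| |ζ| ≤ 10 σ s^v` -/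
theorem nm_est_L :
    |x.Lraw G.s G.q G.a - x.Lraw G.s G.q G.a' - G.knL (G.lo x) (G.hi x)| ≤ 10 * G.s ^ (G.q.l G.π G.a G.v) := by
  have h0 := hG.s0
  have h1 := hG.s1
  have e : x.Lraw G.s G.q G.a - x.Lraw G.s G.q G.a' - G.knL (G.lo x) (G.hi x)
      = -2 * G.dR (G.lo x) (G.hi x) * (x.z.X - nmRep G.s G.v x.z.X)
        + 2 * G.dk (G.lo x) (G.hi x) * (x.z.Bt (x.ta G.s G.a') - nmRep G.s (G.a' + G.v') (x.z.Bt (x.ta G.s G.a'))) := by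
    have e3 : G.knL (G.lo x) (G.hi x) = -2 * G.dR (G.lo x) (G.hi x) * nmRep G.s G.v x.z.X
        + 2 * G.dk (G.lo x) (G.hi x) * nmRep G.s (G.a' + G.v') (x.z.Bt (x.ta G.s G.a')) := rfl
    rw [nm_gd_Lid, e3]
    ring
  rw [e]
  refine nm_gd_L (nm_est_dR hG x) (nm_est_dk hG x) (nm_rep_abs h0 h1 _ _)
    ((nm_rep_abs h0 h1 _ _).trans (nm_pow_anti h0 h1 (add_le_add hG.a hG.v))) ?_ (nm_cs_l hG)
  rw [← Real.rpow_add h0]
  congr 1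
  ring

/-- the derivative of the difference of the two shears on the actual ray: `ΔL + 2 ΔR X - 2 Δk B' = (L - Lraw) - (L' - Lraw')` -/
theorem nm_est_E0 :
    |G.dL (G.lo x) (G.hi x) + 2 * G.dR (G.lo x) (G.hi x) * x.z.X - 2 * G.dk (G.lo x) (G.hi x) * x.z.Bt (x.ta G.s G.a')|
      ≤ 2 * G.s ^ (G.q.l G.π G.a G.v) := by
  have h0 := hG.s0
  have h1 := hG.s1
  have e : G.dL (G.lo x) (G.hi x) + 2 * G.dR (G.lo x) (G.hi x) * x.z.X - 2 * G.dk (G.lo x) (G.hi x) * x.z.Bt (x.ta G.s G.a')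
      = -(x.Lraw G.s G.q G.a - nmRep G.s (G.q.l G.π G.a G.v) (x.Lraw G.s G.q G.a))
        + (x.Lraw G.s G.q G.a' - nmRep G.s (G.q.l G.π G.a' G.v') (x.Lraw G.s G.q G.a')) := by
    have e3 : G.dL (G.lo x) (G.hi x) = nmRep G.s (G.q.l G.π G.a G.v) (x.Lraw G.s G.q G.a)
        - nmRep G.s (G.q.l G.π G.a' G.v') (x.Lraw G.s G.q G.a') := rfl
    have e4 := nm_gd_Lid G x
    rw [e3]
    linarith
  rw [e]
  have a1 := nm_rep_abs h0 h1 (G.q.l G.π G.a G.v) (x.Lraw G.s G.q G.a)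
  have a2 := (nm_rep_abs h0 h1 (G.q.l G.π G.a' G.v') (x.Lraw G.s G.q G.a')).trans (nm_pow_anti h0 h1 (nm_l_mono hG))
  rw [abs_le] at a1 a2 ⊢
  constructor <;> linarith [a1.1, a1.2, a2.1, a2.2]

/-- error `2 |x' - x| |ζ| + τ (X - x)² ≤ 5 s^(a+2v)` -/
theorem nm_est_Y :
    |(x.z.Yt (x.ta G.s G.a) - 2 * nmRep G.s G.v x.z.X * x.z.Bt (x.ta G.s G.a))
      - (x.z.Yt (x.ta G.s G.a') - 2 * nmRep G.s G.v' x.z.X * x.z.Bt (x.ta G.s G.a')) - G.knY (G.lo x) (G.hi x)|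
      ≤ 5 * G.s ^ (G.a + 2 * G.v) := by
  obtain ⟨t0, t1⟩ := nm_est_tau hG x
  have eτ := nm_gc_tau G x
  have ekn : G.knY (G.lo x) (G.hi x) = 2 * (nmRep G.s G.v' x.z.X - nmRep G.s G.v x.z.X)
      * nmRep G.s (G.a' + G.v') (x.z.Bt (x.ta G.s G.a')) + G.tau (G.lo x) (G.hi x) * nmRep G.s G.v x.z.X ^ 2 := rfl
  have h1 := nm_rep_abs hG.s0 hG.s1 G.v x.z.X
  have h2 := nm_rep_abs hG.s0 hG.s1 G.v' x.z.X
  have h3 := nm_rep_abs hG.s0 hG.s1 (G.a' + G.v') (x.z.Bt (x.ta G.s G.a'))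
  have h4 := nm_pow_anti hG.s0 hG.s1 hG.v
  have h5 := nm_pow_anti hG.s0 hG.s1 (add_le_add hG.a hG.v)
  have hA : 0 < G.s ^ G.a := Real.rpow_pos_of_pos hG.s0 _
  have hV : 0 < G.s ^ G.v := Real.rpow_pos_of_pos hG.s0 _
  have p1 : G.s ^ (G.a + G.v) = G.s ^ G.a * G.s ^ G.v := Real.rpow_add hG.s0 _ _
  have p2 : G.s ^ (G.a + 2 * G.v) = G.s ^ G.a * (G.s ^ G.v) ^ 2 := by
    rw [sq, ← Real.rpow_add hG.s0, ← Real.rpow_add hG.s0]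
    congr 1
    ring
  have e : (x.z.Yt (x.ta G.s G.a) - 2 * nmRep G.s G.v x.z.X * x.z.Bt (x.ta G.s G.a))
      - (x.z.Yt (x.ta G.s G.a') - 2 * nmRep G.s G.v' x.z.X * x.z.Bt (x.ta G.s G.a')) - G.knY (G.lo x) (G.hi x)
      = 2 * ((nmRep G.s G.v' x.z.X - nmRep G.s G.v x.z.X)
          * (x.z.Bt (x.ta G.s G.a') - nmRep G.s (G.a' + G.v') (x.z.Bt (x.ta G.s G.a'))))
        - G.tau (G.lo x) (G.hi x) * (x.z.X - nmRep G.s G.v x.z.X) ^ 2 := by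
    rw [ekn, eτ]
    unfold SfRay.Bt SfRay.Yt
    ring
  have b1 : |nmRep G.s G.v' x.z.X - nmRep G.s G.v x.z.X| ≤ 2 * G.s ^ G.v := by
    rw [abs_le] at h1 h2 ⊢
    constructor <;> linarith [h1.1, h1.2, h2.1, h2.2]
  have b2 : |x.z.Bt (x.ta G.s G.a') - nmRep G.s (G.a' + G.v') (x.z.Bt (x.ta G.s G.a'))| ≤ G.s ^ G.a * G.s ^ G.v := by
    rw [← p1]
    exact h3.trans h5
  have b3 : |(nmRep G.s G.v' x.z.X - nmRep G.s G.v x.z.X)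
      * (x.z.Bt (x.ta G.s G.a') - nmRep G.s (G.a' + G.v') (x.z.Bt (x.ta G.s G.a')))|
      ≤ 2 * G.s ^ G.v * (G.s ^ G.a * G.s ^ G.v) := by
    rw [abs_mul]
    exact mul_le_mul b1 b2 (abs_nonneg _) (by positivity)
  have b4 : G.tau (G.lo x) (G.hi x) * (x.z.X - nmRep G.s G.v x.z.X) ^ 2 ≤ G.s ^ G.a * (G.s ^ G.v) ^ 2 := by
    refine mul_le_mul t1 ?_ (sq_nonneg _) hA.le
    rw [← sq_abs]
    exact pow_le_pow_left₀ (abs_nonneg _) h1 2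
  have b5 : 0 ≤ G.tau (G.lo x) (G.hi x) * (x.z.X - nmRep G.s G.v x.z.X) ^ 2 := mul_nonneg t0 (sq_nonneg _)
  rw [e, p2]
  rw [abs_le] at b3 ⊢
  constructor <;> nlinarith [b3.1, b3.2]

/-- error `-(ξ E0 - ΔR ξ² + Δk υ)`, `≤ 2 s^(l+v) + 5 σ s^(2v) ≤ 7 s^w` -/
theorem nm_est_N :
    |x.Nres G.s G.π G.q G.a G.v - x.Nres G.s G.π G.q G.a' G.v' - G.knN (G.lo x) (G.hi x)|
      ≤ 7 * G.s ^ (G.q.w G.π G.a G.v - G.q.g) := by
  have h0 := hG.s0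
  have h1 := hG.s1
  have e : x.Nres G.s G.π G.q G.a G.v - x.Nres G.s G.π G.q G.a' G.v' - G.knN (G.lo x) (G.hi x)
      = -((x.z.X - nmRep G.s G.v' x.z.X)
            * (G.dL (G.lo x) (G.hi x) + 2 * G.dR (G.lo x) (G.hi x) * x.z.X - 2 * G.dk (G.lo x) (G.hi x) * x.z.Bt (x.ta G.s G.a'))
          - G.dR (G.lo x) (G.hi x) * (x.z.X - nmRep G.s G.v' x.z.X) ^ 2
          + G.dk (G.lo x) (G.hi x) * ((x.z.Yt (x.ta G.s G.a') - 2 * nmRep G.s G.v' x.z.X * x.z.Bt (x.ta G.s G.a'))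
              - nmRep G.s (G.a' + 2 * G.v') (x.z.Yt (x.ta G.s G.a') - 2 * nmRep G.s G.v' x.z.X * x.z.Bt (x.ta G.s G.a')))) := by
    have e1 : G.dR (G.lo x) (G.hi x) = x.Ra G.s G.q G.a + (x.ta G.s G.a' - x.ta G.s G.a) * x.ka G.s G.q G.a - x.Ra G.s G.q G.a' := rfl
    have e2 : G.dk (G.lo x) (G.hi x) = x.ka G.s G.q G.a - x.ka G.s G.q G.a' := rfl
    have e3 : G.dL (G.lo x) (G.hi x) = x.La G.s G.π G.q G.a G.v - x.La G.s G.π G.q G.a' G.v' := rfl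
    have e4 : G.knN (G.lo x) (G.hi x) = -(G.dL (G.lo x) (G.hi x) * nmRep G.s G.v' x.z.X + G.dR (G.lo x) (G.hi x) * nmRep G.s G.v' x.z.X ^ 2
        + G.dk (G.lo x) (G.hi x)
          * nmRep G.s (G.a' + 2 * G.v') (x.z.Yt (x.ta G.s G.a') - 2 * nmRep G.s G.v' x.z.X * x.z.Bt (x.ta G.s G.a'))) := rfl
    rw [e4, e1, e2, e3]
    generalize nmRep G.s (G.a' + 2 * G.v') (x.z.Yt (x.ta G.s G.a') - 2 * nmRep G.s G.v' x.z.X * x.z.Bt (x.ta G.s G.a')) = y0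
    unfold NmRaw.Nres SfRay.Bt SfRay.Yt
    ring
  rw [e]
  refine nm_gd_N (A := G.s ^ (-G.a)) (Sv := G.s ^ G.v) (Sa2v := G.s ^ (G.a + 2 * G.v)) (Sl := G.s ^ (G.q.l G.π G.a G.v))
    (Sw := G.s ^ (G.q.w G.π G.a G.v)) (nm_est_dR hG x) (nm_est_dk hG x)
    ((nm_rep_abs h0 h1 _ _).trans (nm_pow_anti h0 h1 hG.v)) (nm_est_E0 hG x)
    ((nm_rep_abs h0 h1 _ _).trans (nm_pow_anti h0 h1 (by linarith [hG.a, hG.v]))) (Real.rpow_nonneg h0.le _) ?_ (nm_cs_l hG) ?_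
    (nm_pow_anti h0 h1 (by linarith [hG.q.g0]))
  · rw [← Real.rpow_add h0, ← Real.rpow_add h0]
    congr 1
    ring
  · rw [← Real.rpow_add h0, nm_w_eq]

/-- error `-τ (Nres - n0) - (ζ E0 - 2 ΔR ξ ζ + Δk ζ² + ΔR υ)`, `≤ s^(a+w-g) + 13 s^(a+w)` -/
theorem nm_est_D :
    |x.Dres G.s G.π G.q G.a G.v - x.Dres G.s G.π G.q G.a' G.v' - G.knD (G.lo x) (G.hi x)|
      ≤ 14 * G.s ^ (G.a + G.q.w G.π G.a G.v - G.q.g) := by
  have h0 := hG.s0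
  have h1 := hG.s1
  have e : x.Dres G.s G.π G.q G.a G.v - x.Dres G.s G.π G.q G.a' G.v' - G.knD (G.lo x) (G.hi x)
      = -(G.tau (G.lo x) (G.hi x) * (x.Nres G.s G.π G.q G.a G.v - nmRep G.s (G.q.w G.π G.a G.v - G.q.g) (x.Nres G.s G.π G.q G.a G.v)))
        - ((x.z.Bt (x.ta G.s G.a') - nmRep G.s (G.a' + G.v') (x.z.Bt (x.ta G.s G.a')))
            * (G.dL (G.lo x) (G.hi x) + 2 * G.dR (G.lo x) (G.hi x) * x.z.X - 2 * G.dk (G.lo x) (G.hi x) * x.z.Bt (x.ta G.s G.a'))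
          - 2 * G.dR (G.lo x) (G.hi x) * (x.z.X - nmRep G.s G.v' x.z.X)
              * (x.z.Bt (x.ta G.s G.a') - nmRep G.s (G.a' + G.v') (x.z.Bt (x.ta G.s G.a')))
          + G.dk (G.lo x) (G.hi x) * (x.z.Bt (x.ta G.s G.a') - nmRep G.s (G.a' + G.v') (x.z.Bt (x.ta G.s G.a'))) ^ 2
          + G.dR (G.lo x) (G.hi x) * ((x.z.Yt (x.ta G.s G.a') - 2 * nmRep G.s G.v' x.z.X * x.z.Bt (x.ta G.s G.a'))
              - nmRep G.s (G.a' + 2 * G.v') (x.z.Yt (x.ta G.s G.a') - 2 * nmRep G.s G.v' x.z.X * x.z.Bt (x.ta G.s G.a')))) := by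
    have e0 : G.tau (G.lo x) (G.hi x) = x.ta G.s G.a' - x.ta G.s G.a := rfl
    have e1 : G.dR (G.lo x) (G.hi x) = x.Ra G.s G.q G.a + (x.ta G.s G.a' - x.ta G.s G.a) * x.ka G.s G.q G.a - x.Ra G.s G.q G.a' := rfl
    have e2 : G.dk (G.lo x) (G.hi x) = x.ka G.s G.q G.a - x.ka G.s G.q G.a' := rfl
    have e3 : G.dL (G.lo x) (G.hi x) = x.La G.s G.π G.q G.a G.v - x.La G.s G.π G.q G.a' G.v' := rfl
    have e4 : G.knD (G.lo x) (G.hi x) = -(G.tau (G.lo x) (G.hi x) * nmRep G.s (G.q.w G.π G.a G.v - G.q.g) (x.Nres G.s G.π G.q G.a G.v))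
        - (G.dL (G.lo x) (G.hi x) * nmRep G.s (G.a' + G.v') (x.z.Bt (x.ta G.s G.a'))
          + G.dR (G.lo x) (G.hi x)
            * nmRep G.s (G.a' + 2 * G.v') (x.z.Yt (x.ta G.s G.a') - 2 * nmRep G.s G.v' x.z.X * x.z.Bt (x.ta G.s G.a'))
          + 2 * G.dR (G.lo x) (G.hi x) * nmRep G.s G.v' x.z.X * nmRep G.s (G.a' + G.v') (x.z.Bt (x.ta G.s G.a'))
          - G.dk (G.lo x) (G.hi x) * nmRep G.s (G.a' + G.v') (x.z.Bt (x.ta G.s G.a')) ^ 2) := rfl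
    rw [e4, e0, e1, e2, e3]
    generalize nmRep G.s (G.a' + 2 * G.v') (x.z.Yt (x.ta G.s G.a') - 2 * nmRep G.s G.v' x.z.X * x.z.Bt (x.ta G.s G.a')) = y0
    generalize nmRep G.s (G.a' + G.v') (x.z.Bt (x.ta G.s G.a')) = B0
    generalize nmRep G.s (G.q.w G.π G.a G.v - G.q.g) (x.Nres G.s G.π G.q G.a G.v) = n0
    unfold NmRaw.Dres NmRaw.Nres SfRay.Bt SfRay.Yt SfRay.Dt
    ring
  rw [e]
  obtain ⟨hτ0, hτ1⟩ := nm_est_tau hG x
  refine nm_gd_D (A := G.s ^ (-G.a)) (Sa := G.s ^ G.a) (Sv := G.s ^ G.v) (Sav := G.s ^ (G.a + G.v)) (Sa2v := G.s ^ (G.a + 2 * G.v))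
    (Sl := G.s ^ (G.q.l G.π G.a G.v)) (Swg := G.s ^ (G.q.w G.π G.a G.v - G.q.g)) (Saw := G.s ^ (G.a + G.q.w G.π G.a G.v))
    (by rw [abs_of_nonneg hτ0]; exact hτ1) (nm_rep_abs h0 h1 _ _) (nm_est_dR hG x) (nm_est_dk hG x)
    ((nm_rep_abs h0 h1 _ _).trans (nm_pow_anti h0 h1 hG.v))
    ((nm_rep_abs h0 h1 _ _).trans (nm_pow_anti h0 h1 (add_le_add hG.a hG.v))) (nm_est_E0 hG x)
    ((nm_rep_abs h0 h1 _ _).trans (nm_pow_anti h0 h1 (by linarith [hG.a, hG.v]))) (Real.rpow_nonneg h0.le _) ?_ ?_ (nm_cs_l hG) ?_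
    (nm_pow_anti h0 h1 (by linarith [hG.q.g0])) ?_
  · rw [← Real.rpow_add h0]
    congr 1
    ring
  · rw [← Real.rpow_add h0]
    congr 1
    ring
  · rw [← Real.rpow_add h0, nm_w_eq]
    congr 1
    ring
  · rw [← Real.rpow_add h0]
    congr 1
    ring

end est

theorem nm_geo_est_eqns_cite : True := by
  have := @NmQ.Cr.eq_1; have := @NmNm.tv.eq_1; have := @NmNm.Rv.eq_1; have := @NmNm.kv.eq_1; have := @NmNm.Lv.eq_1
  have := @NmNm.Xv.eq_1; have := @NmNm.Bv.eq_1; have := @NmNm.Yv.eq_1; have := @NmNm.Nv.eq_1; have := @NmNm.Dv.eq_1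
  have := @NmG.lo.eq_1; have := @NmG.hi.eq_1; have := @NmG.tau.eq_1; have := @NmG.dk.eq_1; have := @NmG.dR.eq_1; have := @NmG.dL.eq_1
  have := @NmG.cs.eq_1; have := @NmG.knR.eq_1; have := @NmG.knB.eq_1; have := @NmG.knL.eq_1; have := @NmG.knY.eq_1
  have := @NmG.knN.eq_1; have := @NmG.knD.eq_1
  trivial

end

end Claimed.Agent.R256
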